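import Vale.Agent.P113.Defs

/-! The mollifier of P113, its primitive, plateaux and periodizations. -/

namespace Vale.Agent.P113

open Set MeasureTheory Filter Topology
open scoped Real

theorem rho_eq : rho = fun s => expNegInvGlue (1 - s ^ 2) := by
  funext s
  unfold rho expNegInvGlue
  rcases lt_or_ge |s| 1 with h | h
  · have h' : s ^ 2 < 1 := by
      rw [← sq_abs]
      exact pow_lt_one₀ (abs_nonneg s) h two_ne_zero
    rw [if_pos h, if_neg (by linarith)]
    congr 1
    rw [one_div]
  · have h' : 1 ≤ s ^ 2 := by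
      rw [← sq_abs]
      exact one_le_pow₀ h
    rw [if_neg (not_lt.2 h), if_pos (by linarith)]

theorem contDiff_rho {n : ℕ∞} : ContDiff ℝ n rho := by
  rw [rho_eq]
  exact expNegInvGlue.contDiff.comp (contDiff_const.sub (contDiff_id.pow 2))

@[fun_prop]
theorem continuous_rho : Continuous rho := (contDiff_rho (n := 0)).continuous

theorem rho_nonneg (s : ℝ) : 0 ≤ rho s := by
  rw [rho_eq]; exact expNegInvGlue.nonneg _

theorem rho_pos {s : ℝ} (h : |s| < 1) : 0 < rho s := by
  rw [rho, if_pos h]; positivity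

theorem rho_eq_zero {s : ℝ} (h : 1 ≤ |s|) : rho s = 0 := by
  rw [rho, if_neg (not_lt.2 h)]

theorem rho_hasCompactSupport : HasCompactSupport rho :=
  HasCompactSupport.intro (isCompact_Icc (a := (-1 : ℝ)) (b := 1)) fun x hx => by
    apply rho_eq_zero
    by_contra h
    exact hx ⟨(abs_lt.1 (not_le.1 h)).1.le, (abs_lt.1 (not_le.1 h)).2.le⟩

theorem integrable_rho : Integrable rho :=
  continuous_rho.integrable_of_hasCompactSupport rho_hasCompactSupport

theorem sigma_of_le {s : ℝ} (h : s ≤ -1) : sigma s = 0 := by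
  unfold sigma
  refine setIntegral_eq_zero_of_forall_eq_zero fun x hx => rho_eq_zero ?_
  have hx' : x ≤ s := hx
  rw [abs_of_nonpos (by linarith)]
  linarith

theorem sigma_of_ge {s : ℝ} (h : 1 ≤ s) : sigma s = kappa := by
  unfold sigma kappa
  refine setIntegral_eq_integral_of_forall_compl_eq_zero fun x hx => rho_eq_zero ?_
  have hx' : s < x := lt_of_not_ge hx
  rw [abs_of_nonneg (by linarith)]
  linarith

theorem sigma_sub_sigma (a b : ℝ) : sigma b - sigma a = ∫ t in a..b, rho t :=
  intervalIntegral.integral_Iic_sub_Iic integrable_rho.integrableOn integrable_rho.integrableOn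

theorem hasDerivAt_sigma (s : ℝ) : HasDerivAt sigma (rho s) s := by
  have h := (continuous_rho.integral_hasStrictDerivAt (0 : ℝ) s).hasDerivAt.add_const (sigma 0)
  refine h.congr_of_eventuallyEq (Eventually.of_forall fun x => ?_)
  show sigma x = (∫ t in (0:ℝ)..x, rho t) + sigma 0
  rw [← sigma_sub_sigma]; ring

theorem deriv_sigma : deriv sigma = rho := funext fun s => (hasDerivAt_sigma s).deriv

theorem contDiff_sigma {n : ℕ∞} : ContDiff ℝ n sigma := by
  refine contDiff_all_iff_nat.2 (fun m => ?_) n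
  cases m with
  | zero => exact contDiff_zero.2 (Differentiable.continuous fun s => (hasDerivAt_sigma s).differentiableAt)
  | succ m =>
    rw [show ((m + 1 : ℕ) : WithTop ℕ∞) = m + 1 from rfl]
    refine contDiff_succ_iff_deriv.2 ⟨fun s => (hasDerivAt_sigma s).differentiableAt, by simp, ?_⟩
    rw [deriv_sigma]
    exact contDiff_rho (n := (m : ℕ∞))

theorem kappa_pos : 0 < kappa := by
  rw [kappa, integral_pos_iff_support_of_nonneg rho_nonneg integrable_rho]
  refine lt_of_lt_of_le ?_ (measure_mono (s := Ioo (-1 : ℝ) 1) ?_)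
  · simp
  · intro x hx
    exact (rho_pos (abs_lt.2 hx)).ne'

theorem kappa_ne_zero : kappa ≠ 0 := kappa_pos.ne'

theorem contDiff_plateau {n : ℕ∞} (l : ℝ) : ContDiff ℝ n (plateau l) :=
  contDiff_sigma.sub (contDiff_sigma.comp (contDiff_id.sub contDiff_const))

theorem hasDerivAt_plateau (l s : ℝ) : HasDerivAt (plateau l) (rho s - rho (s - l)) s :=
  (hasDerivAt_sigma s).sub
    ((hasDerivAt_sigma (s - l)).comp_sub_const s l)

theorem plateau_eq_kappa {l s : ℝ} (h₁ : 1 ≤ s) (h₂ : s ≤ l - 1) : plateau l s = kappa := by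
  rw [plateau, sigma_of_ge h₁, sigma_of_le (by linarith), sub_zero]

theorem plateau_of_le {l s : ℝ} (hl : 0 ≤ l) (h : s ≤ -1) : plateau l s = 0 := by
  rw [plateau, sigma_of_le h, sigma_of_le (by linarith), sub_zero]

theorem plateau_of_ge {l s : ℝ} (hl : 0 ≤ l) (h : l + 1 ≤ s) : plateau l s = 0 := by
  rw [plateau, sigma_of_ge (by linarith), sigma_of_ge (by linarith), sub_self]

theorem plateau_hasCompactSupport {l : ℝ} (hl : 0 ≤ l) : HasCompactSupport (plateau l) :=
  HasCompactSupport.intro (isCompact_Icc (a := (-1 : ℝ)) (b := l + 1)) fun x hx => by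
    rw [Set.mem_Icc, not_and_or, not_le, not_le] at hx
    rcases hx with h | h
    · exact plateau_of_le hl h.le
    · exact plateau_of_ge hl h.le

/-- A compactly supported function vanishes outside some bounded interval. -/
theorem exists_bound {g : ℝ → ℝ} (hg : HasCompactSupport g) :
    ∃ R, 0 ≤ R ∧ ∀ x, R < |x| → g x = 0 := by
  obtain ⟨R, hR⟩ := hg.isCompact.isBounded.exists_norm_le
  refine ⟨max R 0, le_max_right _ _, fun x hx => ?_⟩
  by_contra h
  have := hR x (subset_tsupport g h)
  rw [Real.norm_eq_abs] at this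
  exact absurd (this.trans (le_max_left R 0)) (not_le.2 hx)

theorem exists_finset_periodize_of_bound (R : ℝ) (hR0 : 0 ≤ R) (y : ℝ) :
    ∃ S : Finset ℤ, ∀ᶠ z in 𝓝 y, ∀ g : ℝ → ℝ, (∀ x, R < |x| → g x = 0) →
      periodize g z = ∑ m ∈ S, g (z + m) := by
  refine ⟨Finset.Icc (⌊-R - |y| - 1⌋) (⌈R + |y| + 1⌉), ?_⟩
  filter_upwards [Metric.ball_mem_nhds y one_pos] with z hz
  intro g hR
  refine tsum_eq_sum fun m hm => hR _ ?_
  rw [Metric.mem_ball, Real.dist_eq] at hz
  have hz' : |z| < |y| + 1 := by
    calc |z| = |(z - y) + y| := by ring_nf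
      _ ≤ |z - y| + |y| := abs_add_le _ _
      _ < |y| + 1 := by linarith
  rw [Finset.mem_Icc, not_and_or, not_le, not_le] at hm
  rcases hm with h | h
  · have h1 : (m : ℝ) < -R - |y| - 1 := by
      rw [Int.lt_floor_iff] at h
      push_cast at h
      linarith
    have h2 := abs_lt.1 hz'
    rw [abs_of_neg (by linarith)]
    linarith
  · have h1 : R + |y| + 1 < (m : ℝ) := Int.ceil_lt_iff.1 h |> fun h' => by linarith
    have h2 := abs_lt.1 hz'
    rw [abs_of_pos (by linarith)]
    linarith

theorem exists_finset_periodize {g : ℝ → ℝ} (hg : HasCompactSupport g) (y : ℝ) :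
    ∃ S : Finset ℤ, ∀ᶠ z in 𝓝 y, periodize g z = ∑ m ∈ S, g (z + m) := by
  obtain ⟨R, hR0, hR⟩ := exists_bound hg
  obtain ⟨S, hS⟩ := exists_finset_periodize_of_bound R hR0 y
  exact ⟨S, hS.mono fun z hz => hz g hR⟩

theorem periodize_add_intCast (g : ℝ → ℝ) (y : ℝ) (n : ℤ) :
    periodize g (y + n) = periodize g y := by
  unfold periodize
  rw [← (Equiv.addLeft n).tsum_eq (fun m : ℤ => g (y + m))]
  refine tsum_congr fun m => ?_
  simp [add_assoc]

theorem periodize_add_one (g : ℝ → ℝ) (y : ℝ) : periodize g (y + 1) = periodize g y := by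
  simpa using periodize_add_intCast g y 1

theorem periodize_periodic (g : ℝ → ℝ) : Function.Periodic (periodize g) 1 :=
  periodize_add_one g

theorem contDiff_periodize {n : ℕ∞} {g : ℝ → ℝ} (hg : HasCompactSupport g) (hs : ContDiff ℝ n g) :
    ContDiff ℝ n (periodize g) := by
  rw [contDiff_iff_contDiffAt]
  intro y
  obtain ⟨S, hS⟩ := exists_finset_periodize hg y
  refine ContDiffAt.congr_of_eventuallyEq ?_ hS
  exact (ContDiff.sum fun m _ => hs.comp (contDiff_id.add contDiff_const)).contDiffAt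

theorem hasDerivAt_periodize {g : ℝ → ℝ} (hg : HasCompactSupport g) (hs : Differentiable ℝ g)
    (y : ℝ) : HasDerivAt (periodize g) (periodize (deriv g) y) y := by
  obtain ⟨R, hR0, hR⟩ := exists_bound hg
  obtain ⟨R', -, hR'⟩ := exists_bound hg.deriv
  obtain ⟨S, hS⟩ := exists_finset_periodize_of_bound (max R R') (hR0.trans (le_max_left _ _)) y
  have hA : ∀ x, max R R' < |x| → g x = 0 := fun x hx => hR x ((le_max_left _ _).trans_lt hx)
  have hB : ∀ x, max R R' < |x| → deriv g x = 0 := fun x hx => hR' x ((le_max_right _ _).trans_lt hx)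
  rw [hS.self_of_nhds _ hB]
  refine HasDerivAt.congr_of_eventuallyEq ?_ (hS.mono fun z hz => hz g hA)
  exact HasDerivAt.fun_sum fun m _ => (hs _).hasDerivAt.comp_add_const y (m : ℝ)

theorem deriv_periodize {g : ℝ → ℝ} (hg : HasCompactSupport g) (hs : Differentiable ℝ g) :
    deriv (periodize g) = periodize (deriv g) :=
  funext fun y => (hasDerivAt_periodize hg hs y).deriv

/-- On a window where only the term `m = 0` can be nonzero, the periodization is the function. -/
theorem periodize_eq_self {g : ℝ → ℝ} {a b y : ℝ} (hg : ∀ x, x ≤ a ∨ b ≤ x → g x = 0)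
    (h₁ : b - 1 ≤ y) (h₂ : y ≤ a + 1) : periodize g y = g y := by
  unfold periodize
  rw [tsum_eq_single (0 : ℤ) fun m hm => hg _ ?_]
  · simp
  · rcases lt_or_gt_of_ne hm with h | h
    · left
      have : (m : ℝ) ≤ -1 := by exact_mod_cast Int.le_sub_one_of_lt h
      linarith
    · right
      have : (1 : ℝ) ≤ (m : ℝ) := by exact_mod_cast Int.add_one_le_iff.2 h
      linarith

theorem periodize_add (g h : ℝ → ℝ) (hg : HasCompactSupport g) (hh : HasCompactSupport h) (y : ℝ) :
    periodize (fun x => g x + h x) y = periodize g y + periodize h y := by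
  obtain ⟨R, hR0, hR⟩ := exists_bound hg
  obtain ⟨R', -, hR'⟩ := exists_bound hh
  obtain ⟨S, hS⟩ := exists_finset_periodize_of_bound (max R R') (hR0.trans (le_max_left _ _)) y
  have hA : ∀ x, max R R' < |x| → g x = 0 := fun x hx => hR x ((le_max_left _ _).trans_lt hx)
  have hB : ∀ x, max R R' < |x| → h x = 0 := fun x hx => hR' x ((le_max_right _ _).trans_lt hx)
  rw [hS.self_of_nhds _ hA, hS.self_of_nhds _ hB,
    hS.self_of_nhds _ (fun x hx => by rw [hA x hx, hB x hx, add_zero]), Finset.sum_add_distrib]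

end Vale.Agent.P113
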