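import Mathlib

/-! Integrals over the unit cube of `ℝ^3` of periodic functions. -/

namespace Vale.Agent.P113

open Set Filter Topology MeasureTheory

/-- Points of `ℝ^3`. -/
abbrev V3 := Fin 3 → ℝ

/-- The partial derivative in the `i`-th coordinate. -/
noncomputable def pdc (i : Fin 3) (F : V3 → ℝ) (x : V3) : ℝ :=
  deriv (fun s => F (Function.update x i s)) (x i)

/-- `1`-periodic in each coordinate, i.e. a function on the torus. -/
def Periodic3 {α : Type*} (F : V3 → α) : Prop :=
  ∀ (x : V3) (i : Fin 3), F (Function.update x i (x i + 1)) = F x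

/-- The integral over the unit cube, as an iterated integral. -/
noncomputable def cubeInt (F : V3 → ℝ) : ℝ :=
  ∫ a in (0:ℝ)..1, ∫ b in (0:ℝ)..1, ∫ c in (0:ℝ)..1, F ![a, b, c]

/-- The closed unit cube. -/
def cube : Set V3 := Set.pi univ fun _ => Icc (0:ℝ) 1

theorem isCompact_cube : IsCompact cube := isCompact_univ_pi fun _ => isCompact_Icc

theorem mem_cube {a b c : ℝ} (ha : a ∈ Icc (0:ℝ) 1) (hb : b ∈ Icc (0:ℝ) 1) (hc : c ∈ Icc (0:ℝ) 1) :
    ![a, b, c] ∈ cube := by
  intro i _
  fin_cases i <;> assumption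

section param

variable {Y : Type*} [TopologicalSpace Y] {s : Set ℝ}

theorem continuousOn_integral01 {F : ℝ → Y → ℝ → ℝ}
    (hF : ContinuousOn (fun q : ℝ × Y × ℝ => F q.1 q.2.1 q.2.2) (s ×ˢ univ)) :
    ContinuousOn (fun q : ℝ × Y => ∫ c in (0:ℝ)..1, F q.1 q.2 c) (s ×ˢ univ) := by
  rw [continuousOn_iff_continuous_domRestrict]
  refine intervalIntegral.continuous_parametric_intervalIntegral_of_continuous'
    (X := ↥(s ×ˢ (univ : Set Y))) (f := fun q c => F q.1.1 q.1.2 c) ?_ 0 1
  exact hF.comp_continuous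
    (f := fun p : ↥(s ×ˢ (univ : Set Y)) × ℝ => (p.1.1.1, p.1.1.2, p.2)) (by fun_prop)
    fun p => ⟨p.1.2.1, mem_univ _⟩

theorem hasDerivAt_integral01 {F F' : ℝ → Y → ℝ → ℝ} (hs : IsOpen s)
    (hF : ContinuousOn (fun q : ℝ × Y × ℝ => F q.1 q.2.1 q.2.2) (s ×ˢ univ))
    (hF' : ContinuousOn (fun q : ℝ × Y × ℝ => F' q.1 q.2.1 q.2.2) (s ×ˢ univ))
    (hd : ∀ t ∈ s, ∀ y c, HasDerivAt (fun r => F r y c) (F' t y c) t) {t : ℝ} (ht : t ∈ s) (y : Y) :
    HasDerivAt (fun r => ∫ c in (0:ℝ)..1, F r y c) (∫ c in (0:ℝ)..1, F' t y c) t := by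
  obtain ⟨ε, hε, hball⟩ := Metric.nhds_basis_closedBall.mem_iff.1 (hs.mem_nhds ht)
  have hcont : ∀ r ∈ s, Continuous (F r y) := fun r hr =>
    hF.comp_continuous (f := fun c : ℝ => (r, y, c)) (by fun_prop) fun c => ⟨hr, mem_univ _⟩
  have hcont' : Continuous (F' t y) :=
    hF'.comp_continuous (f := fun c : ℝ => (t, y, c)) (by fun_prop) fun c => ⟨ht, mem_univ _⟩
  have hK : ContinuousOn (fun p : ℝ × ℝ => F' p.1 y p.2)
      (Metric.closedBall t ε ×ˢ Icc (0:ℝ) 1) :=
    hF'.comp (f := fun p : ℝ × ℝ => (p.1, y, p.2)) (by fun_prop)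
      fun p hp => ⟨hball hp.1, mem_univ _⟩
  obtain ⟨C, hC⟩ := ((isCompact_closedBall t ε).prod isCompact_Icc).exists_bound_of_continuousOn hK
  refine (intervalIntegral.hasDerivAt_integral_of_dominated_loc_of_deriv_le
    (F := fun r c => F r y c) (F' := fun r c => F' r y c) (bound := fun _ => C)
    (Metric.closedBall_mem_nhds t hε) ?_ ((hcont t ht).intervalIntegrable _ _)
    hcont'.aestronglyMeasurable ?_ intervalIntegrable_const ?_).2
  · filter_upwards [hs.mem_nhds ht] with r hr using (hcont r hr).aestronglyMeasurable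
  · refine Eventually.of_forall fun c hc r hr => hC (r, c) ⟨hr, ?_⟩
    rw [uIoc_of_le zero_le_one] at hc
    exact Ioc_subset_Icc_self hc
  · exact Eventually.of_forall fun c _ r hr => hd r (hball hr) y c

end param

theorem continuousOn_vec (G : ℝ → V3 → ℝ) {s : Set ℝ}
    (hG : ContinuousOn (fun q : ℝ × V3 => G q.1 q.2) (s ×ˢ univ)) :
    ContinuousOn (fun q : ℝ × (ℝ × ℝ) × ℝ => G q.1 ![q.2.1.1, q.2.1.2, q.2.2]) (s ×ˢ univ) :=
  hG.comp (f := fun q : ℝ × (ℝ × ℝ) × ℝ => (q.1, ![q.2.1.1, q.2.1.2, q.2.2])) (by fun_prop)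
    fun q hq => ⟨hq.1, mem_univ _⟩

theorem continuousOn_cubeInt {F : ℝ → V3 → ℝ} {s : Set ℝ}
    (hF : ContinuousOn (fun q : ℝ × V3 => F q.1 q.2) (s ×ˢ univ)) :
    ContinuousOn (fun t => cubeInt (F t)) s := by
  have h1 := continuousOn_integral01 (F := fun t (ab : ℝ × ℝ) c => F t ![ab.1, ab.2, c])
    (continuousOn_vec F hF)
  have h2 := continuousOn_integral01
    (F := fun t a b => ∫ c in (0:ℝ)..1, F t ![a, b, c]) h1
  have h3 := continuousOn_integral01
    (F := fun t (_ : Unit) a => ∫ b in (0:ℝ)..1, ∫ c in (0:ℝ)..1, F t ![a, b, c])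
    (h2.comp (f := fun q : ℝ × Unit × ℝ => (q.1, q.2.2)) (by fun_prop)
      fun q hq => ⟨hq.1, mem_univ _⟩)
  exact h3.comp (f := fun t : ℝ => (t, ())) (by fun_prop) fun t ht => ⟨ht, mem_univ _⟩

theorem hasDerivAt_cubeInt {F F' : ℝ → V3 → ℝ} {s : Set ℝ} (hs : IsOpen s)
    (hF : ContinuousOn (fun q : ℝ × V3 => F q.1 q.2) (s ×ˢ univ))
    (hF' : ContinuousOn (fun q : ℝ × V3 => F' q.1 q.2) (s ×ˢ univ))
    (hd : ∀ t ∈ s, ∀ x, HasDerivAt (fun r => F r x) (F' t x) t) {t : ℝ} (ht : t ∈ s) :
    HasDerivAt (fun r => cubeInt (F r)) (cubeInt (F' t)) t := by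
  have c1 := continuousOn_integral01 (F := fun t (ab : ℝ × ℝ) c => F t ![ab.1, ab.2, c])
    (continuousOn_vec F hF)
  have c1' := continuousOn_integral01 (F := fun t (ab : ℝ × ℝ) c => F' t ![ab.1, ab.2, c])
    (continuousOn_vec F' hF')
  have d1 := fun t (ht : t ∈ s) (a b : ℝ) => hasDerivAt_integral01
    (F := fun t (ab : ℝ × ℝ) c => F t ![ab.1, ab.2, c])
    (F' := fun t (ab : ℝ × ℝ) c => F' t ![ab.1, ab.2, c]) hs
    (continuousOn_vec F hF) (continuousOn_vec F' hF') (fun t ht y c => hd t ht _) ht (a, b)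
  have c2 := continuousOn_integral01 (F := fun t a b => ∫ c in (0:ℝ)..1, F t ![a, b, c]) c1
  have c2' := continuousOn_integral01 (F := fun t a b => ∫ c in (0:ℝ)..1, F' t ![a, b, c]) c1'
  have d2 := fun t (ht : t ∈ s) a => hasDerivAt_integral01
    (F := fun t a b => ∫ c in (0:ℝ)..1, F t ![a, b, c])
    (F' := fun t a b => ∫ c in (0:ℝ)..1, F' t ![a, b, c]) hs c1 c1' d1 ht a
  exact hasDerivAt_integral01
    (F := fun t (_ : Unit) a => ∫ b in (0:ℝ)..1, ∫ c in (0:ℝ)..1, F t ![a, b, c])
    (F' := fun t (_ : Unit) a => ∫ b in (0:ℝ)..1, ∫ c in (0:ℝ)..1, F' t ![a, b, c]) hs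
    (c2.comp (f := fun q : ℝ × Unit × ℝ => (q.1, q.2.2)) (by fun_prop)
      fun q hq => ⟨hq.1, mem_univ _⟩)
    (c2'.comp (f := fun q : ℝ × Unit × ℝ => (q.1, q.2.2)) (by fun_prop)
      fun q hq => ⟨hq.1, mem_univ _⟩)
    (fun t ht _ a => d2 t ht a) ht ()

theorem continuous_inner1 {F : V3 → ℝ} (hF : Continuous F) :
    Continuous fun ab : ℝ × ℝ => ∫ c in (0:ℝ)..1, F ![ab.1, ab.2, c] :=
  intervalIntegral.continuous_parametric_intervalIntegral_of_continuous'
    (f := fun (ab : ℝ × ℝ) c => F ![ab.1, ab.2, c]) (by fun_prop) 0 1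

theorem continuous_inner2 {F : V3 → ℝ} (hF : Continuous F) :
    Continuous fun a : ℝ => ∫ b in (0:ℝ)..1, ∫ c in (0:ℝ)..1, F ![a, b, c] :=
  intervalIntegral.continuous_parametric_intervalIntegral_of_continuous'
    (f := fun a b => ∫ c in (0:ℝ)..1, F ![a, b, c]) (continuous_inner1 hF) 0 1

theorem intervalIntegrable_inner0 {F : V3 → ℝ} (hF : Continuous F) (a b : ℝ) :
    IntervalIntegrable (fun c => F ![a, b, c]) volume 0 1 :=
  Continuous.intervalIntegrable (by fun_prop) _ _

theorem intervalIntegrable_inner1 {F : V3 → ℝ} (hF : Continuous F) (a : ℝ) :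
    IntervalIntegrable (fun b => ∫ c in (0:ℝ)..1, F ![a, b, c]) volume 0 1 :=
  ((continuous_inner1 hF).comp (f := fun b : ℝ => (a, b)) (by fun_prop)).intervalIntegrable _ _

theorem cubeInt_mono {F G : V3 → ℝ} (hF : Continuous F) (hG : Continuous G)
    (h : ∀ x ∈ cube, F x ≤ G x) : cubeInt F ≤ cubeInt G := by
  refine intervalIntegral.integral_mono_on zero_le_one ((continuous_inner2 hF).intervalIntegrable _ _)
    ((continuous_inner2 hG).intervalIntegrable _ _) fun a ha => ?_
  refine intervalIntegral.integral_mono_on zero_le_one (intervalIntegrable_inner1 hF a)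
    (intervalIntegrable_inner1 hG a) fun b hb => ?_
  exact intervalIntegral.integral_mono_on zero_le_one (intervalIntegrable_inner0 hF a b)
    (intervalIntegrable_inner0 hG a b) fun c hc => h _ (mem_cube ha hb hc)

theorem cubeInt_add {F G : V3 → ℝ} (hF : Continuous F) (hG : Continuous G) :
    cubeInt (fun x => F x + G x) = cubeInt F + cubeInt G := by
  unfold cubeInt
  rw [← intervalIntegral.integral_add ((continuous_inner2 hF).intervalIntegrable _ _)
    ((continuous_inner2 hG).intervalIntegrable _ _)]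
  refine intervalIntegral.integral_congr fun a _ => ?_
  simp only
  rw [← intervalIntegral.integral_add (intervalIntegrable_inner1 hF a)
    (intervalIntegrable_inner1 hG a)]
  refine intervalIntegral.integral_congr fun b _ => ?_
  rw [← intervalIntegral.integral_add (intervalIntegrable_inner0 hF a b)
    (intervalIntegrable_inner0 hG a b)]

theorem cubeInt_const_mul (r : ℝ) (F : V3 → ℝ) :
    cubeInt (fun x => r * F x) = r * cubeInt F := by
  simp [cubeInt, intervalIntegral.integral_const_mul]

theorem cubeInt_const (r : ℝ) : cubeInt (fun _ => r) = r := by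
  simp [cubeInt]

theorem cubeInt_sum {ι : Type*} (S : Finset ι) {F : ι → V3 → ℝ} (hF : ∀ i ∈ S, Continuous (F i)) :
    cubeInt (fun x => ∑ i ∈ S, F i x) = ∑ i ∈ S, cubeInt (F i) := by
  classical
  induction S using Finset.induction_on with
  | empty => simp [cubeInt_const]
  | insert i S hi ih =>
    simp only [Finset.mem_insert, forall_eq_or_imp] at hF
    simp only [Finset.sum_insert hi]
    rw [cubeInt_add hF.1 (continuous_finsetSum S hF.2), ih hF.2]

theorem cubeInt_nonneg {F : V3 → ℝ} (hF : Continuous F) (h : ∀ x ∈ cube, 0 ≤ F x) :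
    0 ≤ cubeInt F := by
  have := cubeInt_mono (continuous_const (y := (0:ℝ))) hF h
  rwa [cubeInt_const] at this

theorem eq_zero_of_integral_eq_zero {f : ℝ → ℝ} (hf : Continuous f)
    (h0 : ∀ x ∈ Icc (0:ℝ) 1, 0 ≤ f x) (h : ∫ x in (0:ℝ)..1, f x = 0) :
    ∀ x ∈ Icc (0:ℝ) 1, f x = 0 := by
  intro x hx
  by_contra hne
  have := intervalIntegral.integral_lt_integral_of_continuousOn_of_le_of_exists_lt (f := fun _ => 0)
    (g := f) zero_lt_one continuousOn_const hf.continuousOn
    (fun y hy => h0 y (Ioc_subset_Icc_self hy)) ⟨x, hx, lt_of_le_of_ne (h0 x hx) (Ne.symm hne)⟩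
  simp [h] at this

theorem eq_zero_of_cubeInt_eq_zero {F : V3 → ℝ} (hF : Continuous F) (h0 : ∀ x ∈ cube, 0 ≤ F x)
    (h : cubeInt F = 0) : ∀ x ∈ cube, F x = 0 := by
  intro x hx
  have hI : ∀ a ∈ Icc (0:ℝ) 1, ∀ b ∈ Icc (0:ℝ) 1, 0 ≤ ∫ c in (0:ℝ)..1, F ![a, b, c] :=
    fun a ha b hb => intervalIntegral.integral_nonneg zero_le_one
      fun c hc => h0 _ (mem_cube ha hb hc)
  have h2 := eq_zero_of_integral_eq_zero (continuous_inner2 hF)
    (fun a ha => intervalIntegral.integral_nonneg zero_le_one fun b hb => hI a ha b hb) h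
  have ha := hx 0 (mem_univ _)
  have hb := hx 1 (mem_univ _)
  have hc := hx 2 (mem_univ _)
  have h3 := eq_zero_of_integral_eq_zero
    ((continuous_inner1 hF).comp (f := fun b : ℝ => (x 0, b)) (by fun_prop)) (hI _ ha) (h2 _ ha)
  have h4 := eq_zero_of_integral_eq_zero (f := fun c => F ![x 0, x 1, c]) (by fun_prop)
    (fun c hc => h0 _ (mem_cube ha hb hc)) (h3 _ hb) _ hc
  have hx' : x = ![x 0, x 1, x 2] := by ext i; fin_cases i <;> rfl
  rw [hx']
  exact h4

theorem Periodic3.coord {α : Type*} {F : V3 → α} (hF : Periodic3 F) (x : V3) (i : Fin 3) :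
    Function.Periodic (fun s => F (Function.update x i s)) 1 := fun s => by
  have := hF (Function.update x i s) i
  simpa using this

theorem Periodic3.eq_of_cube {α : Type*} {F : V3 → α} (hF : Periodic3 F) (x : V3) :
    ∃ y ∈ cube, F x = F y := by
  have step : ∀ (z : V3) (i : Fin 3), F (Function.update z i (Int.fract (z i))) = F z := by
    intro z i
    have := ((hF.coord z i).sub_int_mul_eq ⌊z i⌋ (x := z i))
    simp only [mul_one, Function.update_eq_self] at this
    rw [Int.self_sub_floor] at this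
    exact this
  refine ⟨fun i => Int.fract (x i), fun i _ => ⟨Int.fract_nonneg _, (Int.fract_lt_one _).le⟩, ?_⟩
  have e : (fun i => Int.fract (x i)) = Function.update (Function.update (Function.update x 0
      (Int.fract (x 0))) 1 (Int.fract (x 1))) 2 (Int.fract (x 2)) := by
    ext i; fin_cases i <;> simp [Function.update]
  rw [e]
  have h2 := step (Function.update (Function.update x 0 (Int.fract (x 0))) 1 (Int.fract (x 1))) 2
  have h1 := step (Function.update x 0 (Int.fract (x 0))) 1
  rw [Function.update_of_ne (by decide), Function.update_of_ne (by decide)] at h2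
  rw [Function.update_of_ne (by decide)] at h1
  rw [h2, h1, step x 0]

theorem Periodic3.pdc {F : V3 → ℝ} (hF : Periodic3 F) (j : Fin 3) : Periodic3 (Vale.Agent.P113.pdc j F) := by
  intro x i
  unfold Vale.Agent.P113.pdc
  rcases eq_or_ne i j with rfl | hij
  · simp only [Function.update_idem, Function.update_self]
    have hp := hF.coord x i
    conv_rhs => rw [← (funext fun s => hp s : (fun s => F (Function.update x i (s + 1))) =
      fun s => F (Function.update x i s))]
    rw [deriv_comp_add_const (f := fun s => F (Function.update x i s))]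
  · simp only [Function.update_of_ne hij.symm]
    congr 1
    funext s
    have := hF (Function.update x j s) i
    rw [Function.update_of_ne hij] at this
    rw [Function.update_comm hij, this]

theorem update_vec_zero (a b c r : ℝ) : Function.update ![a, b, c] 0 r = ![r, b, c] := by
  ext i; fin_cases i <;> simp [Function.update]

theorem update_vec_one (a b c r : ℝ) : Function.update ![a, b, c] 1 r = ![a, r, c] := by
  ext i; fin_cases i <;> simp [Function.update]

theorem update_vec_two (a b c r : ℝ) : Function.update ![a, b, c] 2 r = ![a, b, r] := by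
  ext i; fin_cases i <;> simp [Function.update]

theorem cubeInt_pd {F : V3 → ℝ} (hF : Periodic3 F) (hc : Continuous F) (i : Fin 3)
    (hd : ∀ x, DifferentiableAt ℝ (fun s => F (Function.update x i s)) (x i))
    (hcd : Continuous (Vale.Agent.P113.pdc i F)) : cubeInt (Vale.Agent.P113.pdc i F) = 0 := by
  set sh : ℝ → V3 → V3 := fun s x => Function.update x i (x i + s) with hsh
  have hshc : Continuous fun q : ℝ × V3 => sh q.1 q.2 :=
    continuous_snd.update i (((continuous_apply i).comp continuous_snd).add continuous_fst)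
  have hder : ∀ s x, HasDerivAt (fun r => F (sh r x)) (Vale.Agent.P113.pdc i F (sh s x)) s := by
    intro s x
    have h := (hd (sh s x)).hasDerivAt
    simp only [hsh, Function.update_idem, Function.update_self] at h
    have h' := h.comp_const_add (x i) s
    simpa [Vale.Agent.P113.pdc, hsh] using h'
  have hG := hasDerivAt_cubeInt (F := fun s x => F (sh s x))
    (F' := fun s x => Vale.Agent.P113.pdc i F (sh s x)) isOpen_univ
    (hc.comp hshc).continuousOn (hcd.comp hshc).continuousOn (fun s _ x => hder s x) (mem_univ 0)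
  have hconst : ∀ s, cubeInt (fun x => F (sh s x)) = cubeInt F := by
    intro s
    unfold cubeInt
    fin_cases i
    · have hp : Function.Periodic (fun a => ∫ b in (0:ℝ)..1, ∫ c in (0:ℝ)..1, F ![a, b, c]) 1 := by
        intro a
        refine intervalIntegral.integral_congr fun b _ => intervalIntegral.integral_congr fun c _ => ?_
        simpa [update_vec_zero] using hF ![a, b, c] 0
      have := hp.intervalIntegral_add_eq s 0
      rw [zero_add] at this
      rw [← this]
      have hcomp := intervalIntegral.integral_comp_add_right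
        (fun a => ∫ b in (0:ℝ)..1, ∫ c in (0:ℝ)..1, F ![a, b, c]) s (a := 0) (b := 1)
      rw [zero_add, add_comm 1 s] at hcomp
      rw [← hcomp]
      simp [hsh, update_vec_zero]
    · refine intervalIntegral.integral_congr fun a _ => ?_
      have hp : Function.Periodic (fun b => ∫ c in (0:ℝ)..1, F ![a, b, c]) 1 := by
        intro b
        refine intervalIntegral.integral_congr fun c _ => ?_
        simpa [update_vec_one] using hF ![a, b, c] 1
      have := hp.intervalIntegral_add_eq s 0
      rw [zero_add] at this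
      simp only
      rw [← this]
      have hcomp := intervalIntegral.integral_comp_add_right
        (fun b => ∫ c in (0:ℝ)..1, F ![a, b, c]) s (a := 0) (b := 1)
      rw [zero_add, add_comm 1 s] at hcomp
      rw [← hcomp]
      simp [hsh, update_vec_one]
    · refine intervalIntegral.integral_congr fun a _ => intervalIntegral.integral_congr fun b _ => ?_
      have hp : Function.Periodic (fun c => F ![a, b, c]) 1 := by
        intro c
        simpa [update_vec_two] using hF ![a, b, c] 2
      have := hp.intervalIntegral_add_eq s 0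
      rw [zero_add] at this
      simp only
      rw [← this]
      have hcomp := intervalIntegral.integral_comp_add_right
        (fun c => F ![a, b, c]) s (a := 0) (b := 1)
      rw [zero_add, add_comm 1 s] at hcomp
      rw [← hcomp]
      simp [hsh, update_vec_two]
  have h0 : HasDerivAt (fun s => cubeInt (fun x => F (sh s x))) 0 0 := by
    simp only [hconst]
    exact hasDerivAt_const _ _
  have := hG.unique h0
  simpa [hsh] using this

end Vale.Agent.P113
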