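import Vale.Agent.P113.Syntax
import Vale.Agent.P113.Bumps
import Vale.Agent.P113.Cube

/-! P113: the operations on terms act as the operations on the functions they denote. -/

namespace Vale.Agent.P113

open Set Filter Topology
open scoped ContDiff

/-! ## Numerical data -/

theorem RatData.val_mul (r s : RatData) : (r.mul s).val = r.val * s.val := by
  have h1 : ((r.2.2 : ℝ) + 1) ≠ 0 := by positivity
  have h2 : ((s.2.2 : ℝ) + 1) ≠ 0 := by positivity
  have h3 : ((r.2.2 : ℝ) * s.2.2 + r.2.2 + s.2.2 + 1) ≠ 0 := by positivity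
  simp only [RatData.val, RatData.mul]
  push_cast
  field_simp
  ring

theorem RatData.val_neg (r : RatData) : r.neg.val = -r.val := by
  simp only [RatData.val, RatData.neg]
  ring

theorem RatData.val_addPos (r : RatData) (l : PosData) : (r.addPos l).val = r.val + l.val := by
  have h1 : ((r.2.2 : ℝ) + 1) ≠ 0 := by positivity
  have h2 : ((l.2 : ℝ) + 1) ≠ 0 := by positivity
  have h3 : ((r.2.2 : ℝ) * l.2 + r.2.2 + l.2 + 1) ≠ 0 := by positivity
  simp only [RatData.val, PosData.val, RatData.addPos]
  push_cast
  field_simp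
  ring

theorem PosData.val_pos (l : PosData) : 0 < l.val := by
  unfold PosData.val; positivity

theorem NzData.val_toRat (a : NzData) : a.toRat.val = a.val := by
  obtain ⟨b, p⟩ := a
  cases b <;> simp [NzData.val, NzData.toRat, RatData.val, PosData.val]; ring

theorem NzData.val_ne_zero (a : NzData) : a.val ≠ 0 := by
  have := PosData.val_pos a.2
  unfold NzData.val
  split <;> linarith

theorem Coeff.eval_mul (c d : Coeff) (ν : ℝ) : (c.mul d).eval ν = c.eval ν * d.eval ν := by
  have h : (IntData.val (c.2.2.1.1 + d.2.2.1.1, c.2.2.1.2 + d.2.2.1.2)) =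
      c.2.2.1.val + d.2.2.1.val := by
    simp only [IntData.val]; push_cast; ring
  simp only [Coeff.eval, Coeff.mul, RatData.val_mul, h, List.map_append, List.prod_append,
    zpow_add₀ kappa_ne_zero, pow_add]
  ring

theorem Coeff.eval_scale (r : RatData) (c : Coeff) (ν : ℝ) :
    (c.scale r).eval ν = r.val * c.eval ν := by
  simp only [Coeff.eval, Coeff.scale, RatData.val_mul]
  ring

theorem Coeff.eval_neg (c : Coeff) (ν : ℝ) : c.neg.eval ν = -c.eval ν := by
  simp only [Coeff.eval, Coeff.neg, RatData.val_neg]
  ring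

theorem Coeff.eval_negNu (c : Coeff) (ν : ℝ) : c.negNu.eval ν = -ν * c.eval ν := by
  simp only [Coeff.eval, Coeff.negNu, RatData.val_neg, pow_succ]
  ring

theorem Coeff.eval_mk' (r : RatData) (n : ℕ) (rs : List PosData) (ν : ℝ) :
    (Coeff.mk' r n rs).eval ν = r.val / kappa ^ n * (rs.map fun r => Real.log r.val).prod := by
  simp [Coeff.eval, Coeff.mk', IntData.val, div_eq_mul_inv]

/-! ## Bumps -/

theorem rho_vanish {s : ℝ} (h : 1 < |s|) : rho =ᶠ[𝓝 s] 0 := by
  filter_upwards [(isOpen_lt continuous_const continuous_abs).mem_nhds h] with y hy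
  exact rho_eq_zero (le_of_lt hy)

theorem iteratedDeriv_rho_eq_zero (j : ℕ) {s : ℝ} (h : 1 < |s|) : iteratedDeriv j rho s = 0 := by
  rw [(rho_vanish h).iteratedDeriv_eq]
  cases j <;> simp

theorem contDiff_iteratedDeriv_rho (j : ℕ) : ContDiff ℝ ∞ (iteratedDeriv j rho) := by
  induction j with
  | zero => simpa using contDiff_rho (n := ⊤)
  | succ j ih =>
    rw [iteratedDeriv_succ]
    exact (contDiff_infty_iff_deriv.1 ih).2

theorem iteratedDeriv_rho_eq_zero' (j : ℕ) {s : ℝ} (h : 1 ≤ |s|) : iteratedDeriv j rho s = 0 := by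
  rcases h.lt_or_eq with h | h
  · exact iteratedDeriv_rho_eq_zero j h
  · have hc : Continuous (iteratedDeriv j rho) := (contDiff_iteratedDeriv_rho j).continuous
    have hcl : IsClosed {x | iteratedDeriv j rho x = 0} := isClosed_eq hc continuous_const
    refine hcl.closure_subset_iff.2 (fun x (hx : x ∈ {x : ℝ | 1 < |x|}) =>
      iteratedDeriv_rho_eq_zero j hx) ?_
    rw [Metric.mem_closure_iff]
    intro ε hε
    refine ⟨s * (1 + ε / 2), ?_, ?_⟩
    · show 1 < |s * (1 + ε / 2)|
      rw [abs_mul, ← h, one_mul, abs_of_pos (by positivity)]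
      linarith
    · rw [Real.dist_eq]
      have : s - s * (1 + ε / 2) = -(s * (ε / 2)) := by ring
      rw [this, abs_neg, abs_mul, ← h, one_mul, abs_of_pos (by positivity)]
      linarith

theorem Bump.contDiff_eval (g : Bump) : ContDiff ℝ ∞ g.eval := by
  have hlin : ContDiff ℝ ∞ fun s => g.2.1.val * s - g.2.2.1.val :=
    (contDiff_const.mul contDiff_id).sub contDiff_const
  unfold Bump.eval
  refine (contDiff_id.pow g.1).mul ?_
  rcases g.2.2.2 with j | l
  · exact (contDiff_iteratedDeriv_rho j).comp hlin
  · exact (contDiff_plateau (n := ⊤) l.val).comp hlin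

theorem Bump.hasCompactSupport_eval (g : Bump) : HasCompactSupport g.eval := by
  obtain ⟨k, a, b, kind⟩ := g
  have ha := NzData.val_ne_zero a
  obtain ⟨R, hR⟩ : ∃ R, ∀ z, R < |z| →
      Sum.elim (fun j => iteratedDeriv j rho z) (fun l : PosData => plateau l.val z) kind = 0 := by
    rcases kind with j | l
    · exact ⟨1, fun z hz => iteratedDeriv_rho_eq_zero j hz⟩
    · refine ⟨l.val + 1, fun z hz => ?_⟩
      have hl := (PosData.val_pos l).le
      rcases abs_cases z with ⟨e, _⟩ | ⟨e, _⟩ <;> rw [e] at hz
      · exact plateau_of_ge hl hz.le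
      · exact plateau_of_le hl (by linarith)
  refine HasCompactSupport.intro
    (isCompact_closedBall (0 : ℝ) ((|R| + |b.val| + 1) / |a.val|)) fun s hs => ?_
  have h1 : (|R| + |b.val| + 1) / |a.val| < |s| := by simpa [Real.norm_eq_abs] using hs
  rw [div_lt_iff₀ (abs_pos.2 ha)] at h1
  have h2 : |s * a.val| ≤ |a.val * s - b.val| + |b.val| := by
    calc |s * a.val| = |(a.val * s - b.val) + b.val| := by ring_nf
      _ ≤ _ := abs_add_le _ _
  rw [abs_mul] at h2
  have := hR (a.val * s - b.val) (by linarith [le_abs_self R])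
  unfold Bump.eval
  rcases kind with j | l <;> simp only [Sum.elim_inl, Sum.elim_inr] at this ⊢ <;> simp [this]

theorem Bump.differentiable_eval (g : Bump) : Differentiable ℝ g.eval :=
  g.contDiff_eval.differentiable (by simp)

/-- The value of a combination of bumps. -/
noncomputable def combEval (L : List (RatData × Bump)) (s : ℝ) : ℝ :=
  (L.map fun e => e.1.val * e.2.eval s).sum

theorem Bump.hasDerivAt_eval (g : Bump) (s : ℝ) :
    HasDerivAt g.eval (combEval g.dlist s) s := by
  obtain ⟨k, a, b, kind⟩ := g
  have hlin : HasDerivAt (fun s => a.val * s - b.val) a.val s := by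
    simpa using ((hasDerivAt_id s).const_mul a.val).sub_const b.val
  have hk : RatData.val (k, 0, 0) = k := by simp [RatData.val]
  rcases kind with j | l
  · have h1 : HasDerivAt (iteratedDeriv j rho) (iteratedDeriv (j + 1) rho (a.val * s - b.val))
        (a.val * s - b.val) := by
      rw [iteratedDeriv_succ]
      exact ((contDiff_iteratedDeriv_rho j).differentiable (by simp) _).hasDerivAt
    refine ((hasDerivAt_pow k s).fun_mul (h1.comp s hlin)).congr_deriv ?_
    simp only [combEval, Bump.dlist, Bump.eval, List.map_cons, List.map_nil, List.sum_cons,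
      List.sum_nil, Sum.elim_inl, NzData.val_toRat, hk, Function.comp_apply]
    ring
  · refine ((hasDerivAt_pow k s).fun_mul ((hasDerivAt_plateau l.val _).comp s hlin)).congr_deriv ?_
    simp only [combEval, Bump.dlist, Bump.eval, List.map_cons, List.map_nil, List.sum_cons,
      List.sum_nil, Sum.elim_inl, Sum.elim_inr, NzData.val_toRat, RatData.val_neg,
      RatData.val_addPos, hk, Function.comp_apply, iteratedDeriv_zero, sub_sub]
    ring

theorem combEval_support (L : List (RatData × Bump)) : HasCompactSupport (combEval L) := by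
  induction L with
  | nil => exact HasCompactSupport.intro isCompact_empty fun _ _ => by simp [combEval]
  | cons e L ih =>
    have : combEval (e :: L) = fun s => e.1.val * e.2.eval s + combEval L s := by
      funext s; simp [combEval]
    rw [this]
    exact ((e.2.hasCompactSupport_eval).mul_left (f := fun _ => e.1.val)).add ih

theorem periodize_const_mul (r : ℝ) (g : ℝ → ℝ) (y : ℝ) :
    periodize (fun s => r * g s) y = r * periodize g y := tsum_mul_left

theorem periodize_zero (y : ℝ) : periodize (fun _ => 0) y = 0 := tsum_zero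

theorem periodize_combEval (L : List (RatData × Bump)) (y : ℝ) :
    periodize (combEval L) y = (L.map fun e => e.1.val * periodize e.2.eval y).sum := by
  induction L with
  | nil =>
    show periodize (fun _ => 0) y = 0
    exact periodize_zero y
  | cons e L ih =>
    have : combEval (e :: L) = fun s => e.1.val * e.2.eval s + combEval L s := by
      funext s; simp [combEval]
    rw [this, periodize_add (fun s => e.1.val * e.2.eval s) (combEval L)
      ((e.2.hasCompactSupport_eval).mul_left (f := fun _ => e.1.val)) (combEval_support L) y,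
      periodize_const_mul, ih]
    simp

theorem hasDerivAt_perBump (g : Bump) (y : ℝ) :
    HasDerivAt (fun s => periodize g.eval s)
      ((g.dlist.map fun e => e.1.val * periodize e.2.eval y).sum) y := by
  rw [← periodize_combEval]
  have := hasDerivAt_periodize g.hasCompactSupport_eval g.differentiable_eval y
  rwa [show deriv g.eval = combEval g.dlist from funext fun s => (g.hasDerivAt_eval s).deriv] at this

theorem contDiff_perBump (g : Bump) : ContDiff ℝ ∞ (periodize g.eval) :=
  contDiff_periodize (n := ⊤) g.hasCompactSupport_eval g.contDiff_eval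

theorem hasDerivAt_timeFactor (g : Bool × Bump) (t : ℝ) :
    HasDerivAt (timeFactor g) (((timeDlist g).map fun e => e.1.val * timeFactor e.2 t).sum) t := by
  obtain ⟨f, g⟩ := g
  cases f
  · convert g.hasDerivAt_eval t using 1
    · funext s; simp [timeFactor]
    · simp [timeDlist, timeFactor, combEval, Function.comp_def]
  · convert hasDerivAt_perBump g t using 1
    · funext s; simp [timeFactor]
    · simp [timeDlist, timeFactor, Function.comp_def]

theorem contDiff_timeFactor (g : Bool × Bump) : ContDiff ℝ ∞ (timeFactor g) := by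
  obtain ⟨f, g⟩ := g
  cases f
  · have : timeFactor (false, g) = g.eval := funext fun s => by simp [timeFactor]
    rw [this]; exact g.contDiff_eval
  · have : timeFactor (true, g) = periodize g.eval := funext fun s => by simp [timeFactor]
    rw [this]; exact contDiff_perBump g

/-! ## The product rule -/

section
variable {α : Type} (D : α → List (RatData × α)) (e : α → ℝ → ℝ)

theorem dProdAux_fst (l : List α) : (dProdAux D l).1 = l := by
  induction l with
  | nil => rfl
  | cons g l ih =>
    show g :: (dProdAux D l).1 = g :: l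
    rw [ih]

theorem dProd_nil : dProd D [] = [] := rfl

theorem dProd_cons (g : α) (l : List α) :
    dProd D (g :: l) =
      ((D g).map fun e => (e.1, e.2 :: l)) ++ (dProd D l).map fun e => (e.1, g :: e.2) := by
  show ((D g).map fun e => (e.1, e.2 :: (dProdAux D l).1)) ++ _ = _
  rw [dProdAux_fst]
  rfl

theorem hasDerivAt_dProd (hD : ∀ g s, HasDerivAt (e g) (((D g).map fun r => r.1.val * e r.2 s).sum) s)
    (l : List α) (s : ℝ) :
    HasDerivAt (fun y => (l.map fun g => e g y).prod)
      (((dProd D l).map fun r => r.1.val * (r.2.map fun g => e g s).prod).sum) s := by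
  induction l with
  | nil => simpa [dProd_nil] using hasDerivAt_const s (1 : ℝ)
  | cons g l ih =>
    simp only [List.map_cons, List.prod_cons]
    refine ((hD g s).fun_mul ih).congr_deriv ?_
    rw [dProd_cons, List.map_append, List.sum_append]
    simp only [List.map_map, Function.comp_def, List.map_cons, List.prod_cons]
    rw [← List.sum_map_mul_right, ← List.sum_map_mul_left]
    simp [mul_assoc, mul_left_comm]

end

/-- The product of the time factors. -/
noncomputable def timeProd (l : List (Bool × Bump)) (t : ℝ) : ℝ :=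
  (l.map fun g => timeFactor g t).prod

theorem hasDerivAt_timeProd (l : List (Bool × Bump)) (t : ℝ) :
    HasDerivAt (timeProd l) (((dProd timeDlist l).map fun r => r.1.val * timeProd r.2 t).sum) t :=
  hasDerivAt_dProd timeDlist timeFactor hasDerivAt_timeFactor l t

theorem hasDerivAt_spaceProd (l : List Bump) (y : ℝ) :
    HasDerivAt (spaceProd l) (((dProd Bump.dlist l).map fun r => r.1.val * spaceProd r.2 y).sum) y :=
  hasDerivAt_dProd Bump.dlist (fun g => periodize g.eval) hasDerivAt_perBump l y

theorem timeProd_append (l k : List (Bool × Bump)) (t : ℝ) :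
    timeProd (l ++ k) t = timeProd l t * timeProd k t := by
  simp [timeProd]

theorem spaceProd_append (l k : List Bump) (y : ℝ) :
    spaceProd (l ++ k) y = spaceProd l y * spaceProd k y := by
  simp [spaceProd]

theorem contDiff_spaceProd (l : List Bump) : ContDiff ℝ ∞ (spaceProd l) := by
  induction l with
  | nil => exact contDiff_const (c := (1 : ℝ))
  | cons g l ih =>
    have : spaceProd (g :: l) = fun y => periodize g.eval y * spaceProd l y := by
      funext y; simp [spaceProd]
    rw [this]
    exact (contDiff_perBump g).mul ih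

theorem contDiff_timeProd (l : List (Bool × Bump)) : ContDiff ℝ ∞ (timeProd l) := by
  induction l with
  | nil => exact contDiff_const (c := (1 : ℝ))
  | cons g l ih =>
    have : timeProd (g :: l) = fun y => timeFactor g y * timeProd l y := by
      funext y; simp [timeProd]
    rw [this]
    exact (contDiff_timeFactor g).mul ih

theorem spaceProd_intCast (l : List Bump) (y : ℝ) (k : ℤ) :
    spaceProd l (y + k) = spaceProd l y := by
  simp [spaceProd, periodize_add_intCast]

/-! ## Terms -/

theorem Term.eval_eq (a : Term) (ν t : ℝ) (x : V3) :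
    a.eval ν t x = a.1.eval ν * timeProd a.2.1 t *
      spaceProd a.2.2.1 (x 0) * spaceProd a.2.2.2.1 (x 1) * spaceProd a.2.2.2.2 (x 2) := rfl

theorem Term.eval_mul (a b : Term) (ν t : ℝ) (x : V3) :
    (a.mul b).eval ν t x = a.eval ν t x * b.eval ν t x := by
  simp only [Term.eval_eq, Term.mul, Coeff.eval_mul, timeProd_append, spaceProd_append]
  ring

theorem Term.eval_neg (a : Term) (ν t : ℝ) (x : V3) : a.neg.eval ν t x = -a.eval ν t x := by
  simp only [Term.eval_eq, Term.neg, Coeff.eval_neg]
  ring

theorem Term.eval_negNu (a : Term) (ν t : ℝ) (x : V3) :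
    a.negNu.eval ν t x = -ν * a.eval ν t x := by
  simp only [Term.eval_eq, Term.negNu, Coeff.eval_negNu]
  ring

/-- The value of a sum of terms. -/
noncomputable def sumEval (L : List Term) (ν t : ℝ) (x : V3) : ℝ :=
  (L.map fun a => a.eval ν t x).sum

theorem sumEval_nil (ν t : ℝ) (x : V3) : sumEval [] ν t x = 0 := rfl

theorem sumEval_cons (a : Term) (L : List Term) (ν t : ℝ) (x : V3) :
    sumEval (a :: L) ν t x = a.eval ν t x + sumEval L ν t x := by
  simp [sumEval]

theorem sumEval_append (L K : List Term) (ν t : ℝ) (x : V3) :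
    sumEval (L ++ K) ν t x = sumEval L ν t x + sumEval K ν t x := by
  simp [sumEval]

theorem sumEval_flatMap {β : Type} (D : β → List Term) (L : List β) (ν t : ℝ) (x : V3) :
    sumEval (L.flatMap D) ν t x = (L.map fun b => sumEval (D b) ν t x).sum := by
  induction L with
  | nil => rfl
  | cons b L ih => simp [sumEval_append, ih]

theorem sumEval_neg (L : List Term) (ν t : ℝ) (x : V3) :
    sumEval (L.map Term.neg) ν t x = -sumEval L ν t x := by
  induction L with
  | nil => simp [sumEval]
  | cons a L ih =>
    simp only [List.map_cons, sumEval_cons, ih, Term.eval_neg]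
    ring

theorem sumEval_negNu (L : List Term) (ν t : ℝ) (x : V3) :
    sumEval (L.map Term.negNu) ν t x = -ν * sumEval L ν t x := by
  induction L with
  | nil => simp [sumEval]
  | cons a L ih =>
    simp only [List.map_cons, sumEval_cons, ih, Term.eval_negNu]
    ring

theorem sumEval_mulSum (L K : List Term) (ν t : ℝ) (x : V3) :
    sumEval (mulSum L K) ν t x = sumEval L ν t x * sumEval K ν t x := by
  rw [mulSum, sumEval_flatMap]
  simp only [sumEval, List.map_map, Function.comp_def, Term.eval_mul]
  rw [← List.sum_map_mul_right]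
  simp [List.sum_map_mul_left]

theorem Term.sumEval_dT (a : Term) (ν t : ℝ) (x : V3) :
    sumEval a.dT ν t x = a.1.eval ν * deriv (timeProd a.2.1) t *
      spaceProd a.2.2.1 (x 0) * spaceProd a.2.2.2.1 (x 1) * spaceProd a.2.2.2.2 (x 2) := by
  rw [(hasDerivAt_timeProd a.2.1 t).deriv]
  simp only [sumEval, Term.dT, List.map_map, Function.comp_def, Term.eval_eq, Coeff.eval_scale]
  simp only [← List.sum_map_mul_left, ← List.sum_map_mul_right]
  congr 1
  exact List.map_congr_left fun r _ => by ring

theorem Term.sumEval_dX (a : Term) (ν t : ℝ) (x : V3) :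
    sumEval a.dX ν t x = a.1.eval ν * timeProd a.2.1 t *
      deriv (spaceProd a.2.2.1) (x 0) * spaceProd a.2.2.2.1 (x 1) * spaceProd a.2.2.2.2 (x 2) := by
  rw [(hasDerivAt_spaceProd a.2.2.1 (x 0)).deriv]
  simp only [sumEval, Term.dX, List.map_map, Function.comp_def, Term.eval_eq, Coeff.eval_scale]
  simp only [← List.sum_map_mul_left, ← List.sum_map_mul_right]
  congr 1
  exact List.map_congr_left fun r _ => by ring

theorem Term.sumEval_dY (a : Term) (ν t : ℝ) (x : V3) :
    sumEval a.dY ν t x = a.1.eval ν * timeProd a.2.1 t *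
      spaceProd a.2.2.1 (x 0) * deriv (spaceProd a.2.2.2.1) (x 1) * spaceProd a.2.2.2.2 (x 2) := by
  rw [(hasDerivAt_spaceProd a.2.2.2.1 (x 1)).deriv]
  simp only [sumEval, Term.dY, List.map_map, Function.comp_def, Term.eval_eq, Coeff.eval_scale]
  simp only [← List.sum_map_mul_left, ← List.sum_map_mul_right]
  congr 1
  exact List.map_congr_left fun r _ => by ring

theorem Term.sumEval_dZ (a : Term) (ν t : ℝ) (x : V3) :
    sumEval a.dZ ν t x = a.1.eval ν * timeProd a.2.1 t *
      spaceProd a.2.2.1 (x 0) * spaceProd a.2.2.2.1 (x 1) * deriv (spaceProd a.2.2.2.2) (x 2) := by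
  rw [(hasDerivAt_spaceProd a.2.2.2.2 (x 2)).deriv]
  simp only [sumEval, Term.dZ, List.map_map, Function.comp_def, Term.eval_eq, Coeff.eval_scale]
  simp only [← List.sum_map_mul_left, ← List.sum_map_mul_right]
  congr 1
  exact List.map_congr_left fun r _ => by ring

theorem contDiff_term (a : Term) (ν : ℝ) :
    ContDiff ℝ ∞ fun z : ℝ × V3 => a.eval ν z.1 z.2 := by
  have hx : ∀ i : Fin 3, ContDiff ℝ ∞ fun z : ℝ × V3 => z.2 i :=
    fun i => (contDiff_apply ℝ ℝ i).comp contDiff_snd
  simp only [Term.eval_eq]
  exact (((contDiff_const.mul ((contDiff_timeProd _).comp contDiff_fst)).mul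
    ((contDiff_spaceProd _).comp (hx 0))).mul ((contDiff_spaceProd _).comp (hx 1))).mul
    ((contDiff_spaceProd _).comp (hx 2))

theorem contDiff_sumEval (L : List Term) (ν : ℝ) :
    ContDiff ℝ ∞ fun z : ℝ × V3 => sumEval L ν z.1 z.2 := by
  induction L with
  | nil => exact contDiff_const (c := (0 : ℝ))
  | cons a L ih =>
    simp only [sumEval_cons]
    exact (contDiff_term a ν).add ih

theorem contDiff_sumEval_space (L : List Term) (ν t : ℝ) :
    ContDiff ℝ ∞ fun x : V3 => sumEval L ν t x :=
  ContDiff.comp (g := fun z : ℝ × V3 => sumEval L ν z.1 z.2) (f := fun x : V3 => (t, x))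
    (contDiff_sumEval L ν) (contDiff_const.prodMk contDiff_id)

theorem hasDerivAt_sumEval_time (L : List Term) (ν t : ℝ) (x : V3) :
    HasDerivAt (fun s => sumEval L ν s x) (sumEval (L.flatMap Term.dT) ν t x) t := by
  induction L with
  | nil => exact hasDerivAt_const t (0 : ℝ)
  | cons a L ih =>
    simp only [sumEval_cons, List.flatMap_cons, sumEval_append]
    refine HasDerivAt.fun_add ?_ ih
    rw [Term.sumEval_dT]
    simp only [Term.eval_eq]
    exact (((((contDiff_timeProd _).differentiable (by simp) t).hasDerivAt.const_mul _).mul_const _).mul_const _).mul_const _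

/-- The syntactic derivative in the coordinate `i`. -/
def Term.dSpace (i : Fin 3) : Term → List Term := ![Term.dX, Term.dY, Term.dZ] i

theorem hasDerivAt_term_slice (a : Term) (ν t : ℝ) (x : V3) (i : Fin 3) :
    HasDerivAt (fun s => a.eval ν t (Function.update x i s)) (sumEval (Term.dSpace i a) ν t x)
      (x i) := by
  have h : ∀ (l : List Bump) y, HasDerivAt (spaceProd l) (deriv (spaceProd l) y) y :=
    fun l y => ((contDiff_spaceProd l).differentiable (by simp) y).hasDerivAt
  fin_cases i
  · simp only [Term.eval_eq, Term.dSpace]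
    simpa [Term.sumEval_dX] using (((h a.2.2.1 (x 0)).const_mul (a.1.eval ν * timeProd a.2.1 t)).mul_const
      (spaceProd a.2.2.2.1 (x 1))).mul_const (spaceProd a.2.2.2.2 (x 2))
  · simp only [Term.eval_eq, Term.dSpace]
    simpa [Term.sumEval_dY] using ((h a.2.2.2.1 (x 1)).const_mul (a.1.eval ν * timeProd a.2.1 t *
      spaceProd a.2.2.1 (x 0))).mul_const (spaceProd a.2.2.2.2 (x 2))
  · simp only [Term.eval_eq, Term.dSpace]
    simpa [Term.sumEval_dZ] using (h a.2.2.2.2 (x 2)).const_mul (a.1.eval ν * timeProd a.2.1 t *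
      spaceProd a.2.2.1 (x 0) * spaceProd a.2.2.2.1 (x 1))

theorem hasDerivAt_sumEval_slice (L : List Term) (ν t : ℝ) (x : V3) (i : Fin 3) :
    HasDerivAt (fun s => sumEval L ν t (Function.update x i s))
      (sumEval (L.flatMap (Term.dSpace i)) ν t x) (x i) := by
  induction L with
  | nil => exact hasDerivAt_const _ (0 : ℝ)
  | cons a L ih =>
    simp only [sumEval_cons, List.flatMap_cons, sumEval_append]
    exact (hasDerivAt_term_slice a ν t x i).fun_add ih

theorem fderiv_single_eq {F : V3 → ℝ} {x : V3} {i : Fin 3} {d : ℝ} (hF : DifferentiableAt ℝ F x)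
    (h : HasDerivAt (fun s => F (Function.update x i s)) d (x i)) :
    fderiv ℝ F x (Pi.single i 1) = d := by
  have hF' : HasFDerivAt F (fderiv ℝ F x) (Function.update x i (x i)) := by
    simpa using hF.hasFDerivAt
  exact (hF'.comp_hasDerivAt (x i) (hasDerivAt_update x i (x i))).unique h

theorem pd_sumEval (L : List Term) (ν t : ℝ) (i : Fin 3) :
    pd i (fun x => sumEval L ν t x) = fun x => sumEval (L.flatMap (Term.dSpace i)) ν t x :=
  funext fun x => fderiv_single_eq ((contDiff_sumEval_space L ν t).differentiable (by simp) x)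
    (hasDerivAt_sumEval_slice L ν t x i)

theorem sumEval_torus (L : List Term) (ν t : ℝ) : IsTorusFun fun x => sumEval L ν t x := by
  intro x k
  simp only [sumEval, Term.eval_eq, Pi.add_apply, spaceProd_intCast]

theorem sumEval_dX_dZ (a : Term) (ν t : ℝ) (x : V3) :
    sumEval (a.dZ.flatMap Term.dX) ν t x = sumEval (a.dX.flatMap Term.dZ) ν t x := by
  rw [sumEval_flatMap, sumEval_flatMap]
  simp only [Term.sumEval_dX, Term.sumEval_dZ]
  have e1 := (hasDerivAt_spaceProd a.2.2.2.2 (x 2)).deriv
  have e2 := (hasDerivAt_spaceProd a.2.2.1 (x 0)).deriv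
  have h1 : ((Term.dZ a).map fun b : Term => b.1.eval ν * timeProd b.2.1 t *
      deriv (spaceProd b.2.2.1) (x 0) * spaceProd b.2.2.2.1 (x 1) * spaceProd b.2.2.2.2 (x 2)).sum
      = a.1.eval ν * timeProd a.2.1 t * deriv (spaceProd a.2.2.1) (x 0) *
        spaceProd a.2.2.2.1 (x 1) * deriv (spaceProd a.2.2.2.2) (x 2) := by
    rw [e1]
    simp only [Term.dZ, List.map_map, Function.comp_def, Coeff.eval_scale, ← List.sum_map_mul_left]
    congr 1
    exact List.map_congr_left fun r _ => by ring
  have h2 : ((Term.dX a).map fun b : Term => b.1.eval ν * timeProd b.2.1 t *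
      spaceProd b.2.2.1 (x 0) * spaceProd b.2.2.2.1 (x 1) * deriv (spaceProd b.2.2.2.2) (x 2)).sum
      = a.1.eval ν * timeProd a.2.1 t * deriv (spaceProd a.2.2.1) (x 0) *
        spaceProd a.2.2.2.1 (x 1) * deriv (spaceProd a.2.2.2.2) (x 2) := by
    rw [e2]
    simp only [Term.dX, List.map_map, Function.comp_def, Coeff.eval_scale, ← List.sum_map_mul_left,
      ← List.sum_map_mul_right]
    congr 1
    exact List.map_congr_left fun r _ => by ring
  exact h1.trans h2.symm

theorem sumEval_dY_dZ (a : Term) (ν t : ℝ) (x : V3) :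
    sumEval (a.dZ.flatMap Term.dY) ν t x = sumEval (a.dY.flatMap Term.dZ) ν t x := by
  rw [sumEval_flatMap, sumEval_flatMap]
  simp only [Term.sumEval_dY, Term.sumEval_dZ]
  have e1 := (hasDerivAt_spaceProd a.2.2.2.2 (x 2)).deriv
  have e2 := (hasDerivAt_spaceProd a.2.2.2.1 (x 1)).deriv
  have h1 : ((Term.dZ a).map fun b : Term => b.1.eval ν * timeProd b.2.1 t *
      spaceProd b.2.2.1 (x 0) * deriv (spaceProd b.2.2.2.1) (x 1) * spaceProd b.2.2.2.2 (x 2)).sum
      = a.1.eval ν * timeProd a.2.1 t * spaceProd a.2.2.1 (x 0) *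
        deriv (spaceProd a.2.2.2.1) (x 1) * deriv (spaceProd a.2.2.2.2) (x 2) := by
    rw [e1]
    simp only [Term.dZ, List.map_map, Function.comp_def, Coeff.eval_scale, ← List.sum_map_mul_left]
    congr 1
    exact List.map_congr_left fun r _ => by ring
  have h2 : ((Term.dY a).map fun b : Term => b.1.eval ν * timeProd b.2.1 t *
      spaceProd b.2.2.1 (x 0) * spaceProd b.2.2.2.1 (x 1) * deriv (spaceProd b.2.2.2.2) (x 2)).sum
      = a.1.eval ν * timeProd a.2.1 t * spaceProd a.2.2.1 (x 0) *
        deriv (spaceProd a.2.2.2.1) (x 1) * deriv (spaceProd a.2.2.2.2) (x 2) := by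
    rw [e2]
    simp only [Term.dY, List.map_map, Function.comp_def, Coeff.eval_scale, ← List.sum_map_mul_left,
      ← List.sum_map_mul_right]
    congr 1
    exact List.map_congr_left fun r _ => by ring
  exact h1.trans h2.symm

end Vale.Agent.P113
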