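import Mathlib

/-!
P113: definitions used by the statement (machines, admissible terms, classical
solutions of forced Navier-Stokes on the flat three-torus, trajectories).
-/

namespace Vale.Agent.P113

open Set MeasureTheory
open scoped ContDiff

/-! ## Machines -/

/-- Data of a deterministic one-tape Turing machine: number of states minus one,
alphabet size minus one, start state, the flags of the halting states, and the
transition table. Out-of-range entries are reduced modulo the sizes, so that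
every value is a machine and every machine is represented. The blank is `0`. -/
abbrev Machine : Type := ℕ × ℕ × ℕ × List Bool × List (ℕ × ℕ × ℕ)

namespace Machine

/-- The states are `0, …, numStates - 1`. -/
def numStates (M : Machine) : ℕ := M.1 + 1

/-- The letters are `0, …, numSymbols - 1`, with `0` the blank. -/
def numSymbols (M : Machine) : ℕ := M.2.1 + 1

/-- The start state. -/
def start (M : Machine) : ℕ := M.2.2.1 % M.numStates

/-- Whether a state is halting. -/
def isHalting (M : Machine) (q : ℕ) : Bool := M.2.2.2.1.getD q false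

/-- The table entry for state `q` and letter `a`. -/
def entry (M : Machine) (q a : ℕ) : ℕ × ℕ × ℕ :=
  M.2.2.2.2.getD (q * M.numSymbols + a) (0, 0, 0)

/-- The new state. -/
def newState (M : Machine) (q a : ℕ) : ℕ := (M.entry q a).1 % M.numStates

/-- The letter that is written. -/
def newSymbol (M : Machine) (q a : ℕ) : ℕ := (M.entry q a).2.1 % M.numSymbols

/-- The move of the head: left, right, or none. -/
def move (M : Machine) (q a : ℕ) : ℤ :=
  if (M.entry q a).2.2 = 0 then -1 else if (M.entry q a).2.2 = 1 then 1 else 0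

/-- A configuration: state, head position, two-sided tape. -/
structure Cfg where
  state : ℕ
  head : ℤ
  tape : ℤ → ℕ

/-- The starting configuration on the input `w`: the word is written from cell
`0` on, all other cells are blank, the head is at cell `0`. -/
def init (M : Machine) (w : List ℕ) : Cfg :=
  ⟨M.start, 0, fun z => if 0 ≤ z then w.getD z.toNat 0 % M.numSymbols else 0⟩

/-- One step of the machine. A halting configuration does not change. -/
def step (M : Machine) (c : Cfg) : Cfg :=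
  if M.isHalting c.state then c
  else ⟨M.newState c.state (c.tape c.head), c.head + M.move c.state (c.tape c.head),
    Function.update c.tape c.head (M.newSymbol c.state (c.tape c.head))⟩

/-- The machine reaches a halting state after finitely many steps, possibly none. -/
def Halts (M : Machine) (w : List ℕ) : Prop :=
  ∃ n : ℕ, M.isHalting (M.step^[n] (M.init w)).state = true

end Machine

/-! ## Numerical data -/

/-- Data `(a, b, c)` of the rational `(a - b) / (c + 1)`. -/
abbrev RatData : Type := ℕ × ℕ × ℕ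

noncomputable def RatData.val (r : RatData) : ℝ := ((r.1 : ℝ) - r.2.1) / (r.2.2 + 1)

/-- Data `(a, b)` of the positive rational `(a + 1) / (b + 1)`. -/
abbrev PosData : Type := ℕ × ℕ

noncomputable def PosData.val (r : PosData) : ℝ := ((r.1 : ℝ) + 1) / (r.2 + 1)

/-- Data `(a, b)` of the integer `a - b`. -/
abbrev IntData : Type := ℕ × ℕ

def IntData.val (r : IntData) : ℤ := (r.1 : ℤ) - r.2

/-- Data of a nonzero rational: whether negative, and the absolute value. -/
abbrev NzData : Type := Bool × PosData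

noncomputable def NzData.val (r : NzData) : ℝ :=
  if r.1 then -PosData.val r.2 else PosData.val r.2

/-! ## Bumps and admissible terms -/

/-- The function `ρ`. -/
noncomputable def rho (s : ℝ) : ℝ := if |s| < 1 then Real.exp (-(1 / (1 - s ^ 2))) else 0

/-- `κ = ∫ ρ`. -/
noncomputable def kappa : ℝ := ∫ s, rho s

/-- `σ(s) = ∫_{-∞}^s ρ`. -/
noncomputable def sigma (s : ℝ) : ℝ := ∫ r in Set.Iic s, rho r

/-- `π_ℓ(s) = σ(s) - σ(s - ℓ)`. -/
noncomputable def plateau (l s : ℝ) : ℝ := sigma s - sigma (s - l)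

/-- Data `(k, a, b, kind)` of a bump: `s ^ k * ρ^(j) (a s - b)` when `kind` is
`Sum.inl j` and `s ^ k * π_ℓ (a s - b)` when `kind` is `Sum.inr ℓ`. -/
abbrev Bump : Type := ℕ × NzData × RatData × (ℕ ⊕ PosData)

noncomputable def Bump.eval (g : Bump) (s : ℝ) : ℝ :=
  s ^ g.1 *
    Sum.elim (fun j => iteratedDeriv j rho (g.2.1.val * s - g.2.2.1.val))
      (fun l => plateau l.val (g.2.1.val * s - g.2.2.1.val)) g.2.2.2

/-- The `1`-periodization. -/
noncomputable def periodize (g : ℝ → ℝ) (y : ℝ) : ℝ := ∑' m : ℤ, g (y + (m : ℝ))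

/-- A factor in time: `g` or, when the flag is set, `P[g]`. -/
noncomputable def timeFactor (g : Bool × Bump) (t : ℝ) : ℝ :=
  if g.1 then periodize g.2.eval t else g.2.eval t

/-- The value of a product of periodized bumps (`1` for the empty product). -/
noncomputable def spaceProd (l : List Bump) (y : ℝ) : ℝ :=
  (l.map fun g => periodize g.eval y).prod

/-- Data `(q, m, n, rs)` of the coefficient `q ν^m κ^n ∏ ln r`. -/
abbrev Coeff : Type := RatData × ℕ × IntData × List PosData

noncomputable def Coeff.eval (c : Coeff) (ν : ℝ) : ℝ :=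
  c.1.val * ν ^ c.2.1 * kappa ^ c.2.2.1.val * (c.2.2.2.map fun r => Real.log r.val).prod

/-- Data `(c, θ, h₁, h₂, h₃)` of a term `c θ(t) h₁(x₁) h₂(x₂) h₃(x₃)`. -/
abbrev Term : Type := Coeff × List (Bool × Bump) × List Bump × List Bump × List Bump

noncomputable def Term.eval (τ : Term) (ν t : ℝ) (x : Fin 3 → ℝ) : ℝ :=
  τ.1.eval ν * (τ.2.1.map fun g => timeFactor g t).prod *
    spaceProd τ.2.2.1 (x 0) * spaceProd τ.2.2.2.1 (x 1) * spaceProd τ.2.2.2.2 (x 2)

/-- The time factor is `1` or a product of periodizations only. -/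
def Term.isPeriodic (τ : Term) : Bool := τ.2.1.all fun g => g.1

/-- The output of a force compiler: the list of terms of each component. -/
abbrev Forces : Type := List Term × List Term × List Term

def Forces.component (F : Forces) (i : Fin 3) : List Term :=
  ![F.1, F.2.1, F.2.2] i

set_option synthInstance.maxSize 4000 in
/-- Mathlib's encoding of terms (given here only to shorten instance searches). -/
instance instPrimcodableTerm : Primcodable Term := inferInstance

set_option synthInstance.maxSize 4000 in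
/-- Mathlib's encoding of compiler outputs. -/
instance instPrimcodableForces : Primcodable Forces := inferInstance

/-- The force given by the listed terms. -/
noncomputable def Forces.eval (F : Forces) (ν t : ℝ) (x : Fin 3 → ℝ) : Fin 3 → ℝ :=
  fun i => ((F.component i).map fun τ => τ.eval ν t x).sum

/-! ## The equations -/

/-- The `j`-th partial derivative. -/
noncomputable def pd (j : Fin 3) (g : (Fin 3 → ℝ) → ℝ) (x : Fin 3 → ℝ) : ℝ :=
  fderiv ℝ g x (Pi.single j 1)

/-- `ℤ³`-periodicity, that is, being a function on the torus. -/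
def IsTorusFun {α : Type} (g : (Fin 3 → ℝ) → α) : Prop :=
  ∀ (x : Fin 3 → ℝ) (k : Fin 3 → ℤ), g (x + fun i => (k i : ℝ)) = g x

/-- A classical solution on `[0,T] × 𝕋³` of the forced Navier-Stokes system
starting from rest. -/
structure IsClassicalSolution (ν : ℝ) (f : ℝ → (Fin 3 → ℝ) → Fin 3 → ℝ) (T : ℝ)
    (u : ℝ → (Fin 3 → ℝ) → Fin 3 → ℝ) (p : ℝ → (Fin 3 → ℝ) → ℝ) : Prop where
  u_torus : ∀ t ∈ Icc 0 T, IsTorusFun (u t)
  p_torus : ∀ t ∈ Icc 0 T, IsTorusFun (p t)
  u_space : ∀ t ∈ Icc 0 T, ContDiff ℝ 2 (u t)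
  p_space : ∀ t ∈ Icc 0 T, ContDiff ℝ 1 (p t)
  u_cont : ∀ i, ContinuousOn (fun z : ℝ × (Fin 3 → ℝ) => u z.1 z.2 i) (Icc 0 T ×ˢ univ)
  du_cont : ∀ i j, ContinuousOn
    (fun z : ℝ × (Fin 3 → ℝ) => pd j (fun y => u z.1 y i) z.2) (Icc 0 T ×ˢ univ)
  ddu_cont : ∀ i j k, ContinuousOn
    (fun z : ℝ × (Fin 3 → ℝ) => pd k (pd j (fun y => u z.1 y i)) z.2) (Icc 0 T ×ˢ univ)
  p_cont : ContinuousOn (fun z : ℝ × (Fin 3 → ℝ) => p z.1 z.2) (Icc 0 T ×ˢ univ)
  dp_cont : ∀ i, ContinuousOn
    (fun z : ℝ × (Fin 3 → ℝ) => pd i (p z.1) z.2) (Icc 0 T ×ˢ univ)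
  momentum : ∃ ut : ℝ → (Fin 3 → ℝ) → Fin 3 → ℝ,
    ContinuousOn (fun z : ℝ × (Fin 3 → ℝ) => ut z.1 z.2) (Icc 0 T ×ˢ univ) ∧
    ∀ t ∈ Icc 0 T, ∀ x,
      HasDerivWithinAt (fun s => u s x) (ut t x) (Icc 0 T) t ∧
      ∀ i, ut t x i + ∑ j, u t x j * pd j (fun y => u t y i) x
        = -pd i (p t) x + ν * (∑ j, pd j (pd j fun y => u t y i) x) + f t x i
  div_free : ∀ t ∈ Icc 0 T, ∀ x, ∑ i, pd i (fun y => u t y i) x = 0
  p_mean : ∀ t ∈ Icc 0 T, ∫ x in Icc (0 : Fin 3 → ℝ) 1, p t x = 0
  initial : ∀ x, u 0 x = 0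

/-- `X` is (a lift to `ℝ³` of) the trajectory of `a`. -/
def IsTrajectory (u : ℝ → (Fin 3 → ℝ) → Fin 3 → ℝ) (a : Fin 3 → ℝ)
    (X : ℝ → Fin 3 → ℝ) : Prop :=
  X 0 = a ∧ ∀ t, 0 ≤ t → HasDerivWithinAt X (u t (X t)) (Ici 0) t

/-- The point `x` lies, modulo `ℤ³`, in the open box with corners `lo`, `hi`. -/
def InBox (lo hi : Fin 3 → ℚ) (x : Fin 3 → ℝ) : Prop :=
  ∃ k : Fin 3 → ℤ, ∀ i, (lo i : ℝ) < x i + k i ∧ x i + k i < hi i

/-- The full statement of the question, for every `ν > 0` and with the point, the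
box, the bound `T₀` and the compiler independent of `ν`. -/
def ForceCompilerExists : Prop :=
  ∃ (a lo hi : Fin 3 → ℚ) (T₀ : ℝ) (compile : Machine × List ℕ → Forces),
    (∀ i, lo i < hi i) ∧
    Computable compile ∧
    (∀ M w w' i, ((compile (M, w)).component i).filter Term.isPeriodic
      = ((compile (M, w')).component i).filter Term.isPeriodic) ∧
    ∀ ν : ℝ, 0 < ν → ∀ (M : Machine) (w : List ℕ),
      (∀ i, ∀ τ ∈ (compile (M, w)).component i, τ.isPeriodic = false →
        ∀ t, T₀ ≤ t → ∀ x, τ.eval ν t x = 0) ∧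
      ∃ (u : ℝ → (Fin 3 → ℝ) → Fin 3 → ℝ) (p : ℝ → (Fin 3 → ℝ) → ℝ),
        ContDiffOn ℝ ∞ (fun z : ℝ × (Fin 3 → ℝ) => u z.1 z.2) (Ici 0 ×ˢ univ) ∧
        ContDiffOn ℝ ∞ (fun z : ℝ × (Fin 3 → ℝ) => p z.1 z.2) (Ici 0 ×ˢ univ) ∧
        (∀ T : ℝ, 0 < T →
          IsClassicalSolution ν ((compile (M, w)).eval ν) T u p ∧
          ∀ u' p', IsClassicalSolution ν ((compile (M, w)).eval ν) T u' p' →
            ∀ t ∈ Icc 0 T, ∀ x, u' t x = u t x ∧ p' t x = p t x) ∧
        (∃ X, IsTrajectory u (fun i => (a i : ℝ)) X) ∧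
        ∀ X, IsTrajectory u (fun i => (a i : ℝ)) X →
          ((∃ t, 0 ≤ t ∧ InBox lo hi (X t)) ↔ M.Halts w)

end Vale.Agent.P113
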