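import Vale.Agent.P113.Velocity

/-!
P113: trajectories of the velocity exist and are unique.
-/

namespace Vale.Agent.P113

open Set Filter Topology
open scoped ContDiff NNReal

/-- A smooth field, periodic in space, is bounded and Lipschitz in space on each time interval. -/
theorem exists_bound_lipschitz {v : ℝ → V3 → V3}
    (hv : ContDiff ℝ ∞ fun z : ℝ × V3 => v z.1 z.2) (hp : ∀ t, IsTorusFun (v t)) (a b : ℝ) :
    ∃ L K : ℝ≥0, ∀ t ∈ Icc a b, (∀ x, ‖v t x‖ ≤ L) ∧ LipschitzWith K (v t) := by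
  set D : ℝ × V3 → V3 →L[ℝ] V3 := fun z =>
    (fderiv ℝ (fun w : ℝ × V3 => v w.1 w.2) z).comp (ContinuousLinearMap.inr ℝ ℝ V3) with hD
  have hder : ∀ t x, HasFDerivAt (v t) (D (t, x)) x := fun t x =>
    HasFDerivAt.comp (g := fun w : ℝ × V3 => v w.1 w.2) x
      (hv.differentiable (by simp) (t, x)).hasFDerivAt (hasFDerivAt_prodMk_right t x)
  have hDc : Continuous D :=
    (hv.continuous_fderiv (by simp)).clm_comp continuous_const
  obtain ⟨L, hL⟩ := (isCompact_Icc.prod isCompact_cube).exists_bound_of_continuousOn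
    (s := Icc a b ×ˢ cube) hv.continuous.continuousOn
  obtain ⟨K, hK⟩ := (isCompact_Icc.prod isCompact_cube).exists_bound_of_continuousOn
    (s := Icc a b ×ˢ cube) hDc.continuousOn
  have red : ∀ t x, ∃ y ∈ cube, v t x = v t y ∧ fderiv ℝ (v t) x = fderiv ℝ (v t) y := by
    intro t x
    refine ⟨fun i => Int.fract (x i), fun i _ => ⟨Int.fract_nonneg _, (Int.fract_lt_one _).le⟩, ?_⟩
    have hx : x = (fun i => Int.fract (x i)) + fun i => ((⌊x i⌋ : ℤ) : ℝ) := by
      funext i; simp [Int.fract_add_floor]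
    refine ⟨?_, ?_⟩
    · conv_lhs => rw [hx]
      exact hp t _ _
    · have hfun : (fun y => v t (y + fun i => ((⌊x i⌋ : ℤ) : ℝ))) = v t := funext fun y => hp t y _
      conv_lhs => rw [hx]
      rw [← fderiv_comp_add_right (fun i => ((⌊x i⌋ : ℤ) : ℝ)), hfun]
  refine ⟨L.toNNReal, K.toNNReal, fun t ht => ⟨fun x => ?_, ?_⟩⟩
  · obtain ⟨y, hy, e, -⟩ := red t x
    rw [e, Real.coe_toNNReal']
    exact (hL (t, y) ⟨ht, hy⟩).trans (le_max_left _ _)
  · refine lipschitzWith_of_nnnorm_fderiv_le (fun x => (hder t x).differentiableAt) fun x => ?_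
    obtain ⟨y, hy, -, e⟩ := red t x
    rw [e, (hder t y).fderiv, ← NNReal.coe_le_coe, coe_nnnorm, Real.coe_toNNReal']
    exact (hK (t, y) ⟨ht, hy⟩).trans (le_max_left _ _)

/-- Uniqueness on an interval, for the trajectory and another solution there. -/
theorem trajectory_eq_on (P : Program) (s : Start) {X Y : ℝ → Fin 3 → ℝ} {a b : ℝ} (ha : 0 ≤ a)
    (hX : IsTrajectory (velocity P s) 0 X)
    (hY : ∀ t ∈ Icc a b, HasDerivWithinAt Y (velocity P s t (Y t)) (Icc a b) t)
    (h : X a = Y a) : ∀ t ∈ Icc a b, X t = Y t := by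
  obtain ⟨L, K, hLK⟩ := exists_bound_lipschitz (contDiff_velocity P s) (velocity_torus P s) a b
  refine ODE_solution_unique_of_mem_Icc_right (v := fun t x => velocity P s t x) (K := K)
    (s := fun _ => univ) (fun t ht => ((hLK t ⟨ht.1, ht.2.le⟩).2).lipschitzOnWith)
    ?_ ?_ (fun t _ => trivial) ?_ ?_ (fun t _ => trivial) h
  · exact fun t ht => ((hX.2 t (ha.trans ht.1)).mono fun r hr => ha.trans hr.1).continuousWithinAt
  · intro t ht
    exact (hX.2 t (ha.trans ht.1)).mono fun r hr => (ha.trans ht.1).trans hr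
  · exact fun t ht => (hY t ht).continuousWithinAt
  · intro t ht
    exact (hY t ⟨ht.1, ht.2.le⟩).mono_of_mem_nhdsWithin
      (mem_of_superset (Icc_mem_nhdsGE ht.2) (Icc_subset_Icc_left ht.1))

/-- A trajectory from the origin exists. -/
theorem trajectory_exists (P : Program) (s : Start) :
    ∃ X, IsTrajectory (velocity P s) 0 X := by
  have hv := contDiff_velocity P s
  have hex : ∀ N : ℕ, ∃ Y : ℝ → V3, Y 0 = 0 ∧
      ∀ t ∈ Icc (0 : ℝ) N, HasDerivWithinAt Y (velocity P s t (Y t)) (Icc (0 : ℝ) N) t := by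
    intro N
    obtain ⟨L, K, hLK⟩ := exists_bound_lipschitz hv (velocity_torus P s) 0 N
    have hPL : IsPicardLindelof (fun t x => velocity P s t x)
        (tmin := (0 : ℝ)) (tmax := (N : ℝ)) ⟨0, le_rfl, Nat.cast_nonneg N⟩ (0 : V3)
        (L * (N : ℝ≥0)) 0 L K :=
      { lipschitzOnWith := fun t ht => (hLK t ht).2.lipschitzOnWith
        continuousOn := fun x _ =>
          (hv.continuous.comp (continuous_id.prodMk continuous_const)).continuousOn
        norm_le := fun t ht x _ => (hLK t ht).1 x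
        mul_max_le := by simp }
    exact hPL.exists_eq_forall_mem_Icc_hasDerivWithinAt₀
  choose Y hY0 hY using hex
  have cons : ∀ {N N' : ℕ}, N ≤ N' → ∀ t ∈ Icc (0 : ℝ) N, Y N t = Y N' t := by
    intro N N' hNN
    obtain ⟨L, K, hLK⟩ := exists_bound_lipschitz hv (velocity_torus P s) 0 N
    have hsub : Icc (0 : ℝ) N ⊆ Icc (0 : ℝ) N' :=
      Icc_subset_Icc_right (by exact_mod_cast hNN)
    have hd : ∀ M : ℕ, N ≤ M → ∀ t ∈ Ico (0 : ℝ) N,
        HasDerivWithinAt (Y M) (velocity P s t (Y M t)) (Ici t) t := by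
      intro M hM t ht
      have hlt : t < (M : ℝ) := lt_of_lt_of_le ht.2 (by exact_mod_cast hM)
      exact (hY M t ⟨ht.1, hlt.le⟩).mono_of_mem_nhdsWithin
        (mem_of_superset (Icc_mem_nhdsGE hlt) (Icc_subset_Icc_left ht.1))
    exact ODE_solution_unique_of_mem_Icc_right (v := fun t x => velocity P s t x) (K := K)
      (s := fun _ => univ) (fun t ht => ((hLK t ⟨ht.1, ht.2.le⟩).2).lipschitzOnWith)
      (fun t ht => (hY N t ht).continuousWithinAt) (hd N le_rfl) (fun t _ => trivial)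
      (fun t ht => ((hY N' t (hsub ht)).mono hsub).continuousWithinAt) (hd N' hNN)
      (fun t _ => trivial) (by rw [hY0, hY0])
  refine ⟨fun t => Y (⌊t⌋₊ + 2) t, hY0 _, fun t ht => ?_⟩
  have hu := Nat.lt_floor_add_one t
  have heq : ∀ r ∈ Icc (0 : ℝ) (t + 1), Y (⌊r⌋₊ + 2) r = Y (⌊t⌋₊ + 2) r := by
    intro r hr
    have hru := Nat.lt_floor_add_one r
    rcases le_total (⌊r⌋₊ + 2) (⌊t⌋₊ + 2) with hle | hle
    · exact cons hle r ⟨hr.1, by push_cast; linarith⟩
    · exact (cons hle r ⟨hr.1, by push_cast; linarith [hr.2]⟩).symm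
  have hmem : Icc (0 : ℝ) (t + 1) ∈ 𝓝[Ici 0] t := by
    refine mem_of_superset (inter_mem_nhdsWithin (Ici 0) (Iic_mem_nhds (show t < t + 1 by linarith))) ?_
    exact fun r hr => ⟨hr.1, hr.2⟩
  have hd : HasDerivWithinAt (Y (⌊t⌋₊ + 2)) (velocity P s t (Y (⌊t⌋₊ + 2) t))
      (Icc (0 : ℝ) (t + 1)) t :=
    (hY _ t ⟨ht, by push_cast; linarith⟩).mono (Icc_subset_Icc_right (by push_cast; linarith))
  exact (hd.congr heq rfl).mono_of_mem_nhdsWithin hmem

end Vale.Agent.P113
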