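import Vale.Agent.P113.Plane
import Vale.Agent.P113.Exist

/-! P113: the orbit of the origin performs the loading and then one step per period. -/

namespace Vale.Agent.P113

open Set Filter Topology

/-- The progress of stage `c` of the period `n`. -/
noncomputable def progress (n c : ℕ) (t : ℝ) : ℝ := sigma (16 * (t - n) - c) / kappa

theorem sigma_monotone : Monotone sigma :=
  monotone_of_deriv_nonneg (fun s => (hasDerivAt_sigma s).differentiableAt) fun s => by
    rw [deriv_sigma]; exact rho_nonneg s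

theorem sigma_mem (s : ℝ) : sigma s / kappa ∈ Icc (0 : ℝ) 1 := by
  have h0 : 0 ≤ sigma s := by
    rcases le_or_gt (-1) s with h | h
    · rw [← sigma_of_le (le_refl (-1 : ℝ))]; exact sigma_monotone h
    · rw [sigma_of_le h.le]
  have h1 : sigma s ≤ kappa := by
    rcases le_or_gt s 1 with h | h
    · rw [← sigma_of_ge (le_refl (1 : ℝ))]; exact sigma_monotone h
    · rw [sigma_of_ge h.le]
  exact ⟨div_nonneg h0 kappa_pos.le, (div_le_one kappa_pos).2 h1⟩

theorem hasDerivAt_progress (n c : ℕ) (t : ℝ) :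
    HasDerivAt (progress n c) (16 / kappa * rho (16 * (t - n) - c)) t := by
  have h := ((hasDerivAt_sigma (16 * (t - n) - c)).comp t
    ((((hasDerivAt_id t).sub_const (n : ℝ)).const_mul (16 : ℝ)).sub_const (c : ℝ))).div_const kappa
  exact h.congr_deriv (by ring)

/-! ## The path of a piece -/

theorem PosData.val_ratio {p : Piece} (hs : p.src.1 < p.src.2) (hd : p.dst.1 < p.dst.2) :
    PosData.val p.ratio = ((p.dst.2 : ℝ) - p.dst.1) / ((p.src.2 : ℝ) - p.src.1) := by
  have h1 : ((p.dst.2 - p.dst.1 - 1 : ℕ) : ℝ) + 1 = (p.dst.2 : ℝ) - p.dst.1 := by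
    rw [Nat.cast_sub (by omega), Nat.cast_sub hd.le]; ring
  have h2 : ((p.src.2 - p.src.1 - 1 : ℕ) : ℝ) + 1 = (p.src.2 : ℝ) - p.src.1 := by
    rw [Nat.cast_sub (by omega), Nat.cast_sub hs.le]; ring
  simp only [PosData.val, Piece.ratio, h1, h2]

theorem val_negFix {U : ℕ} (hU : 0 < U) {p : Piece} (hs : p.src.1 < p.src.2) (hd : p.dst.1 < p.dst.2)
    (hne : p.dst.2 - p.dst.1 ≠ p.src.2 - p.src.1) :
    (p.negFix U).val = (((p.dst.2 : ℝ) - p.dst.1) * p.src.1 - p.dst.1 * ((p.src.2 : ℝ) - p.src.1)) /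
      ((((p.src.2 : ℝ) - p.src.1) - ((p.dst.2 : ℝ) - p.dst.1)) * U) := by
  have cd : ((p.dst.2 - p.dst.1 : ℕ) : ℝ) = (p.dst.2 : ℝ) - p.dst.1 := Nat.cast_sub hd.le
  have cs : ((p.src.2 - p.src.1 : ℕ) : ℝ) = (p.src.2 : ℝ) - p.src.1 := Nat.cast_sub hs.le
  unfold Piece.negFix
  split
  · rename_i hlt
    have h3 : 1 ≤ ((p.src.2 - p.src.1) - (p.dst.2 - p.dst.1)) * U :=
      Nat.one_le_iff_ne_zero.2 (Nat.mul_ne_zero (by omega) (by omega))
    simp only [RatData.val, Nat.cast_sub h3, Nat.cast_mul, Nat.cast_sub hlt.le, cd, cs, Nat.cast_one,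
      sub_add_cancel]
  · rename_i hlt
    have h3 : 1 ≤ ((p.dst.2 - p.dst.1) - (p.src.2 - p.src.1)) * U :=
      Nat.one_le_iff_ne_zero.2 (Nat.mul_ne_zero (by omega) (by omega))
    simp only [RatData.val, Nat.cast_sub h3, Nat.cast_mul, Nat.cast_sub (not_lt.1 hlt), cd, cs,
      Nat.cast_one, sub_add_cancel]
    rw [← neg_div_neg_eq]
    congr 1 <;> ring

/-- The moving coordinate as a function of the progress. -/
noncomputable def Piece.path (U : ℕ) (p : Piece) (s th : ℝ) : ℝ :=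
  if p.dst.2 - p.dst.1 = p.src.2 - p.src.1 then s + th * (((p.dst.1 : ℝ) - p.src.1) / U)
  else -(p.negFix U).val + (s + (p.negFix U).val) * Real.exp (th * Real.log (PosData.val p.ratio))

theorem speedVal_eq {U : ℕ} (hU : 0 < U) (p : Piece) (x : ℝ) :
    p.speedVal U x = if p.dst.2 - p.dst.1 = p.src.2 - p.src.1 then ((p.dst.1 : ℝ) - p.src.1) / U
      else Real.log (PosData.val p.ratio) * (x + (p.negFix U).val) := by
  have h1 : ((U - 1 : ℕ) : ℝ) + 1 = (U : ℝ) := by
    rw [Nat.cast_sub (by omega)]; ring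
  by_cases h : p.dst.2 - p.dst.1 = p.src.2 - p.src.1
  · rw [if_pos h, Piece.speedVal, Piece.speed, if_pos h]
    simp [RatData.val, h1]
  · rw [if_neg h, Piece.speedVal, Piece.speed, if_neg h]
    have : RatData.val (1, 0, 0) = 1 := by simp [RatData.val]
    simp [this]
    ring

theorem hasDerivAt_path {U : ℕ} (hU : 0 < U) (p : Piece) (s th : ℝ) :
    HasDerivAt (p.path U s) (p.speedVal U (p.path U s th)) th := by
  rw [speedVal_eq hU]
  by_cases h : p.dst.2 - p.dst.1 = p.src.2 - p.src.1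
  · have hf : p.path U s = fun th => s + th * (((p.dst.1 : ℝ) - p.src.1) / U) :=
      funext fun th => if_pos h
    rw [if_pos h, hf]
    simpa using ((hasDerivAt_id th).mul_const _).const_add s
  · have hf : p.path U s = fun th => -(p.negFix U).val +
        (s + (p.negFix U).val) * Real.exp (th * Real.log (PosData.val p.ratio)) :=
      funext fun th => if_neg h
    rw [if_neg h, hf]
    exact ((((hasDerivAt_id th).mul_const (Real.log (PosData.val p.ratio))).exp).const_mul _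
      |>.const_add _).congr_deriv (by simp; ring)

theorem path_zero (U : ℕ) (p : Piece) (s : ℝ) : p.path U s 0 = s := by
  unfold Piece.path
  split <;> simp

theorem path_one {U : ℕ} (hU : 0 < U) {p : Piece} (hs : p.src.1 < p.src.2) (hd : p.dst.1 < p.dst.2)
    (s : ℝ) : p.path U s 1 = p.map U s := by
  have hU' : (0 : ℝ) < U := by exact_mod_cast hU
  have hs' : (0 : ℝ) < (p.src.2 : ℝ) - p.src.1 := sub_pos.2 (by exact_mod_cast hs)
  unfold Piece.path Piece.map
  split
  · rename_i h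
    have : ((p.dst.2 : ℝ) - p.dst.1) = (p.src.2 : ℝ) - p.src.1 := by
      rw [← Nat.cast_sub hd.le, ← Nat.cast_sub hs.le, h]
    rw [this, div_self hs'.ne']
    ring
  · rename_i h
    have hne : ((p.src.2 : ℝ) - p.src.1) - ((p.dst.2 : ℝ) - p.dst.1) ≠ 0 := by
      rw [← Nat.cast_sub hd.le, ← Nat.cast_sub hs.le, sub_ne_zero]
      exact_mod_cast Ne.symm h
    rw [one_mul, Real.exp_log (PosData.val_pos _), PosData.val_ratio hs hd, val_negFix hU hs hd h]
    field_simp
    ring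

theorem path_mem {U : ℕ} (hU : 0 < U) {p : Piece} (hs : p.src.1 < p.src.2) (hd : p.dst.1 < p.dst.2)
    (s : ℝ) {th : ℝ} (ht : th ∈ Icc (0 : ℝ) 1) : p.path U s th ∈ uIcc s (p.map U s) := by
  have h0 := path_zero U p s
  have h1 := path_one hU hs hd s
  unfold Piece.path at h0 h1 ⊢
  rw [← h1]
  by_cases hL : p.dst.2 - p.dst.1 = p.src.2 - p.src.1
  · rw [if_pos hL, if_pos hL, mem_uIcc]
    set w := (((p.dst.1 : ℝ) - p.src.1) / U)
    rcases le_total 0 w with h | h
    · left; constructor <;> nlinarith [ht.1, ht.2]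
    · right; constructor <;> nlinarith [ht.1, ht.2]
  · rw [if_neg hL] at h0
    rw [if_neg hL, if_neg hL, mem_uIcc]
    set L := Real.log (PosData.val p.ratio)
    set w := s + (p.negFix U).val
    have e0 : Real.exp (0 * L) = 1 := by simp
    rcases le_total 0 L with hL' | hL'
    · have e1 : Real.exp (0 * L) ≤ Real.exp (th * L) := Real.exp_le_exp.2 (by nlinarith [ht.1])
      have e2 : Real.exp (th * L) ≤ Real.exp (1 * L) := Real.exp_le_exp.2 (by nlinarith [ht.2])
      rw [e0] at e1 h0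
      rcases le_total 0 w with hw | hw
      · left; constructor <;> nlinarith
      · right; constructor <;> nlinarith
    · have e1 : Real.exp (th * L) ≤ Real.exp (0 * L) := Real.exp_le_exp.2 (by nlinarith [ht.1])
      have e2 : Real.exp (1 * L) ≤ Real.exp (th * L) := Real.exp_le_exp.2 (by nlinarith [ht.2])
      rw [e0] at e1 h0
      rcases le_total 0 w with hw | hw
      · right; constructor <;> nlinarith
      · left; constructor <;> nlinarith

theorem path_range {U : ℕ} {p : Piece} (hg : Piece.Good U p) (hU : 20 ≤ U) {s : ℝ}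
    (hs : Piece.Mem U p.src s) {th : ℝ} (ht : th ∈ Icc (0 : ℝ) 1) :
    p.path U s th ∈ Icc (0 : ℝ) (4 / 5) := by
  have hU' : (0 : ℝ) < U := by exact_mod_cast (show 0 < U by omega)
  have hsl : (0 : ℝ) < (p.src.2 : ℝ) - p.src.1 := sub_pos.2 (by exact_mod_cast hg.src_lt)
  have hdl : (0 : ℝ) < (p.dst.2 : ℝ) - p.dst.1 := sub_pos.2 (by exact_mod_cast hg.dst_lt)
  have hsb : (p.src.2 : ℝ) / U ≤ 4 / 5 := by
    rw [div_le_iff₀ hU']
    have : 5 * (p.src.2 : ℝ) ≤ 4 * U := by exact_mod_cast hg.src_bd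
    linarith
  have hdb : (p.dst.2 : ℝ) / U ≤ 4 / 5 := by
    rw [div_le_iff₀ hU']
    have : 5 * (p.dst.2 : ℝ) ≤ 4 * U := by exact_mod_cast hg.dst_bd
    linarith
  obtain ⟨a, b⟩ := hs
  refine uIcc_subset_Icc ⟨(div_nonneg (Nat.cast_nonneg _) hU'.le).trans a, b.trans hsb⟩ ⟨?_, ?_⟩
    (path_mem (show 0 < U by omega) hg.src_lt hg.dst_lt s ht)
  · exact add_nonneg (div_nonneg (Nat.cast_nonneg _) hU'.le)
      (mul_nonneg (div_nonneg hdl.le hsl.le) (by linarith))
  · refine le_trans ?_ hdb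
    unfold Piece.map
    have e : (p.dst.2 : ℝ) / U = (p.dst.1 : ℝ) / U + ((p.dst.2 : ℝ) - p.dst.1) / ((p.src.2 : ℝ) - p.src.1)
        * (((p.src.2 : ℝ) - p.src.1) / U) := by field_simp; ring
    rw [e, add_le_add_iff_left]
    refine mul_le_mul_of_nonneg_left ?_ (div_nonneg hdl.le hsl.le)
    rw [sub_div]; linarith

/-! ## The orbit -/

theorem hasDerivWithinAt_planePt {fx fy : ℝ → ℝ} {dx dy : ℝ} {S : Set ℝ} {t : ℝ}
    (hx : HasDerivWithinAt fx dx S t) (hy : HasDerivWithinAt fy dy S t) :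
    HasDerivWithinAt (fun r => planePt (fx r) (fy r)) ![dx, dy, 0] S t := by
  refine hasDerivWithinAt_pi.2 fun i => ?_
  fin_cases i
  · simpa [planePt] using hx
  · simpa [planePt] using hy
  · simpa [planePt] using hasDerivWithinAt_const t S (0 : ℝ)

theorem trajectory_load (P : Program) (s : Start) {X : ℝ → Fin 3 → ℝ}
    (hX : IsTrajectory (velocity P s) 0 X) :
    X (1 / 2) = planePt s.pt.1 s.pt.2 ∧ ∀ t ∈ Icc (0 : ℝ) (1 / 2), X t 0 ∈ uIcc 0 s.pt.1 := by
  set th : ℝ → ℝ := fun t => sigma (4 * t - 1) / kappa with hth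
  have hd : ∀ t, HasDerivAt th (4 / kappa * rho (4 * t - 1)) t := by
    intro t
    refine (((hasDerivAt_sigma (4 * t - 1)).comp t
      (((hasDerivAt_id t).const_mul (4 : ℝ)).sub_const 1)).div_const kappa).congr_deriv ?_
    ring
  have h0 : th 0 = 0 := by
    simp only [hth]; rw [sigma_of_le (by norm_num), zero_div]
  have h1 : th (1 / 2) = 1 := by
    simp only [hth]; rw [sigma_of_ge (by norm_num), div_self kappa_ne_zero]
  have key := trajectory_eq_on P s (a := 0) (b := 1 / 2) le_rfl hX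
    (Y := fun t => planePt (s.pt.1 * th t) (s.pt.2 * th t)) ?_ ?_
  · constructor
    · rw [key (1 / 2) ⟨by norm_num, le_rfl⟩, h1, mul_one, mul_one]
    · intro t ht
      rw [key t ht]
      obtain ⟨a, b⟩ := sigma_mem (4 * t - 1)
      simp only [planePt, Matrix.cons_val_zero, hth, mem_uIcc]
      rcases le_total 0 s.pt.1 with h | h
      · left; constructor <;> nlinarith
      · right; constructor <;> nlinarith
  · intro t ht
    refine (hasDerivWithinAt_planePt ((hd t).const_mul _).hasDerivWithinAt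
      ((hd t).const_mul _).hasDerivWithinAt).congr_deriv ?_
    have hz := fun j => sumEval_fieldTerm_eq_zero (isFieldTerm_field P j) (n := 0) (t := t)
      (by push_cast; exact ht.1) (by push_cast; linarith [ht.2]) 1
      (planePt (s.pt.1 * th t) (s.pt.2 * th t))
    funext i
    fin_cases i
    · show _ = sumEval (P.field.component 0 ++ loadVel s.1) 1 t _
      rw [sumEval_append, hz 0, sumEval_loadVel]
      simp [Start.pt]; ring
    · show _ = sumEval (P.field.component 1 ++ loadVel s.2) 1 t _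
      rw [sumEval_append, hz 1, sumEval_loadVel]
      simp [Start.pt]; ring
    · show _ = sumEval (P.field.component 2) 1 t _
      rw [hz 2]; simp
  · rw [hX.1]
    funext i
    fin_cases i <;> simp [planePt, h0]

theorem window_bounds {n c : ℕ} (hc : 9 ≤ c) (hc' : c ≤ 15) {t : ℝ}
    (ht : t ∈ Icc ((n : ℝ) + ((c : ℝ) - 1) / 16) ((n : ℝ) + ((c : ℝ) + 1) / 16)) :
    (n : ℝ) ≤ t ∧ t ≤ n + 1 ∧ 1 / 2 ≤ t := by
  have h9 : (9 : ℝ) ≤ c := by exact_mod_cast hc
  have h15 : (c : ℝ) ≤ 15 := by exact_mod_cast hc'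
  have := ht.1
  have := ht.2
  have : (0 : ℝ) ≤ n := Nat.cast_nonneg n
  exact ⟨by linarith, by linarith, by linarith⟩

theorem stage_other {L : List Term} {n c c' : ℕ} (hc : 9 ≤ c) (hc' : c ≤ 15) (h1 : 9 ≤ c')
    (h2 : c' ≤ 15) (hne : c + 2 ≤ c' ∨ c' + 2 ≤ c)
    (hL : ∀ a ∈ L, a.2.1 = [(true, stageBump c')]) {t : ℝ}
    (ht : t ∈ Icc ((n : ℝ) + ((c : ℝ) - 1) / 16) ((n : ℝ) + ((c : ℝ) + 1) / 16)) (x : V3) :
    sumEval (L.flatMap Term.dZ) 1 t x = 0 := by
  obtain ⟨b1, b2, -⟩ := window_bounds hc hc' ht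
  refine stage_zero hL ?_ x
  rw [periodize_stageBump (by omega) h2 n b1 b2]
  have := ht.1
  have := ht.2
  rcases hne with h | h
  · have : (c : ℝ) + 2 ≤ c' := by exact_mod_cast h
    exact rho_eq_zero (by rw [abs_of_nonpos (by linarith)]; linarith)
  · have : (c' : ℝ) + 2 ≤ c := by exact_mod_cast h
    exact rho_eq_zero (by rw [abs_of_nonneg (by linarith)]; linarith)

theorem moveX (P : Program) (hP : P.Good) (s : Start) {X : ℝ → Fin 3 → ℝ}
    (hX : IsTrajectory (velocity P s) 0 X) {n c : ℕ} {l : List Piece}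
    (hcl : (c = 9 ∧ l = P.stage1) ∨ (c = 13 ∧ l = P.stage3)) {x y x' : ℝ}
    (ha : ∃ p ∈ l, Piece.Acts P.U p x y x')
    (hXa : X ((n : ℝ) + ((c : ℝ) - 1) / 16) = planePt x y) :
    X ((n : ℝ) + ((c : ℝ) + 1) / 16) = planePt x' y ∧
      ∀ t ∈ Icc ((n : ℝ) + ((c : ℝ) - 1) / 16) ((n : ℝ) + ((c : ℝ) + 1) / 16), X t 0 ∈ uIcc x x' := by
  obtain ⟨p, hp, hms, hmo, rfl⟩ := ha
  have hU : 0 < P.U := by have := hP.U_large; omega
  have hc : 9 ≤ c ∧ c ≤ 15 := by rcases hcl with ⟨rfl, -⟩ | ⟨rfl, -⟩ <;> omega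
  have hl : Program.GoodStage P.U l := by
    rcases hcl with ⟨-, rfl⟩ | ⟨-, rfl⟩
    · exact hP.good1
    · exact hP.good3
  have hg := hl.1 p hp
  set Y : ℝ → Fin 3 → ℝ := fun t => planePt (p.path P.U x (progress n c t)) y with hY
  have key := trajectory_eq_on P s (a := (n : ℝ) + ((c : ℝ) - 1) / 16)
    (b := (n : ℝ) + ((c : ℝ) + 1) / 16) (Y := Y)
    (by
      have : (9 : ℝ) ≤ c := by exact_mod_cast hc.1
      have : (0 : ℝ) ≤ n := Nat.cast_nonneg n
      linarith) hX (fun t ht => ?_) ?_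
  · refine ⟨?_, fun t ht => ?_⟩
    · rw [key _ ⟨by linarith, le_rfl⟩]
      simp only [hY, progress]
      rw [sigma_of_ge (by linarith), div_self kappa_ne_zero, path_one hU hg.src_lt hg.dst_lt]
    · rw [key t ht]
      simpa [hY, planePt, progress] using path_mem hU hg.src_lt hg.dst_lt x (sigma_mem _)
  · obtain ⟨b1, b2, b3⟩ := window_bounds hc.1 hc.2 ht
    have hd : HasDerivAt (fun r => p.path P.U x (progress n c r))
        (p.speedVal P.U (p.path P.U x (progress n c t)) * (16 / kappa * rho (16 * (t - n) - c))) t :=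
      (hasDerivAt_path hU p x _).comp t (hasDerivAt_progress n c t)
    refine (hasDerivWithinAt_planePt hd.hasDerivWithinAt (hasDerivWithinAt_const t _ y)).congr_deriv ?_
    obtain ⟨r1, r2⟩ := path_range hg hP.U_large hms (sigma_mem (16 * (t - n) - c))
    have hYt : Y t = planePt (p.path P.U x (progress n c t)) y := rfl
    rw [hYt, velocity_plane P s b3]
    simp only [progress] at *
    simp only [Program.potXs, Program.potYs, List.flatMap_append, sumEval_append,
      stage_other hc.1 hc.2 (c' := 11) (by norm_num) (by norm_num)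
        (by rcases hcl with ⟨rfl, -⟩ | ⟨rfl, -⟩ <;> norm_num) (potY_time _ _ _) ht,
      stage_other hc.1 hc.2 (c' := 15) (by norm_num) (by norm_num)
        (by rcases hcl with ⟨rfl, -⟩ | ⟨rfl, -⟩ <;> norm_num) (potY_time _ _ _) ht, add_zero]
    have hv := stageX_eval (c := c) hP.U_large hl hp r1 r2 hmo t
    rw [periodize_stageBump (by omega) hc.2 n b1 b2] at hv
    rcases hcl with ⟨rfl, rfl⟩ | ⟨rfl, rfl⟩
    · rw [stage_other hc.1 hc.2 (c' := 13) (by norm_num) (by norm_num) (by norm_num)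
        (potX_time _ _ _) ht, add_zero, hv]
      congr 1; ring
    · rw [stage_other hc.1 hc.2 (c' := 9) (by norm_num) (by norm_num) (by norm_num)
        (potX_time _ _ _) ht, zero_add, hv]
      congr 1; ring
  · rw [hXa]
    simp only [hY, progress]
    rw [sigma_of_le (by linarith), zero_div, path_zero]

theorem moveY (P : Program) (hP : P.Good) (s : Start) {X : ℝ → Fin 3 → ℝ}
    (hX : IsTrajectory (velocity P s) 0 X) {n c : ℕ} {l : List Piece}
    (hcl : (c = 11 ∧ l = P.stage2) ∨ (c = 15 ∧ l = P.stage4)) {x y y' : ℝ}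
    (ha : ∃ p ∈ l, Piece.Acts P.U p y x y')
    (hXa : X ((n : ℝ) + ((c : ℝ) - 1) / 16) = planePt x y) :
    X ((n : ℝ) + ((c : ℝ) + 1) / 16) = planePt x y' ∧
      ∀ t ∈ Icc ((n : ℝ) + ((c : ℝ) - 1) / 16) ((n : ℝ) + ((c : ℝ) + 1) / 16), X t 0 = x := by
  obtain ⟨p, hp, hms, hmo, rfl⟩ := ha
  have hU : 0 < P.U := by have := hP.U_large; omega
  have hc : 9 ≤ c ∧ c ≤ 15 := by rcases hcl with ⟨rfl, -⟩ | ⟨rfl, -⟩ <;> omega
  have hl : Program.GoodStage P.U l := by
    rcases hcl with ⟨-, rfl⟩ | ⟨-, rfl⟩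
    · exact hP.good2
    · exact hP.good4
  have hg := hl.1 p hp
  set Y : ℝ → Fin 3 → ℝ := fun t => planePt x (p.path P.U y (progress n c t)) with hY
  have key := trajectory_eq_on P s (a := (n : ℝ) + ((c : ℝ) - 1) / 16)
    (b := (n : ℝ) + ((c : ℝ) + 1) / 16) (Y := Y)
    (by
      have : (9 : ℝ) ≤ c := by exact_mod_cast hc.1
      have : (0 : ℝ) ≤ n := Nat.cast_nonneg n
      linarith) hX (fun t ht => ?_) ?_
  · refine ⟨?_, fun t ht => ?_⟩
    · rw [key _ ⟨by linarith, le_rfl⟩]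
      simp only [hY, progress]
      rw [sigma_of_ge (by linarith), div_self kappa_ne_zero, path_one hU hg.src_lt hg.dst_lt]
    · rw [key t ht]
      simp [hY, planePt]
  · obtain ⟨b1, b2, b3⟩ := window_bounds hc.1 hc.2 ht
    have hd : HasDerivAt (fun r => p.path P.U y (progress n c r))
        (p.speedVal P.U (p.path P.U y (progress n c t)) * (16 / kappa * rho (16 * (t - n) - c))) t :=
      (hasDerivAt_path hU p y _).comp t (hasDerivAt_progress n c t)
    refine (hasDerivWithinAt_planePt (hasDerivWithinAt_const t _ x) hd.hasDerivWithinAt).congr_deriv ?_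
    obtain ⟨r1, r2⟩ := path_range hg hP.U_large hms (sigma_mem (16 * (t - n) - c))
    have hYt : Y t = planePt x (p.path P.U y (progress n c t)) := rfl
    rw [hYt, velocity_plane P s b3]
    simp only [progress] at *
    simp only [Program.potXs, Program.potYs, List.flatMap_append, sumEval_append,
      stage_other hc.1 hc.2 (c' := 9) (by norm_num) (by norm_num)
        (by rcases hcl with ⟨rfl, -⟩ | ⟨rfl, -⟩ <;> norm_num) (potX_time _ _ _) ht,
      stage_other hc.1 hc.2 (c' := 13) (by norm_num) (by norm_num)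
        (by rcases hcl with ⟨rfl, -⟩ | ⟨rfl, -⟩ <;> norm_num) (potX_time _ _ _) ht, add_zero]
    have hv := stageY_eval (c := c) hP.U_large hl hp r1 r2 hmo t
    rw [periodize_stageBump (by omega) hc.2 n b1 b2] at hv
    rcases hcl with ⟨rfl, rfl⟩ | ⟨rfl, rfl⟩
    · rw [stage_other hc.1 hc.2 (c' := 15) (by norm_num) (by norm_num) (by norm_num)
        (potY_time _ _ _) ht, add_zero, hv]
      congr 2; ring
    · rw [stage_other hc.1 hc.2 (c' := 11) (by norm_num) (by norm_num) (by norm_num)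
        (potY_time _ _ _) ht, zero_add, hv]
      congr 2; ring
  · rw [hXa]
    simp only [hY, progress]
    rw [sigma_of_le (by linarith), zero_div, path_zero]

theorem idle (P : Program) (s : Start) {X : ℝ → Fin 3 → ℝ}
    (hX : IsTrajectory (velocity P s) 0 X) (n : ℕ) :
    ∀ t ∈ Icc ((n : ℝ) + 1) ((n : ℝ) + 3 / 2), X t = X ((n : ℝ) + 1) := by
  have hn : (0 : ℝ) ≤ n := Nat.cast_nonneg n
  refine trajectory_eq_on P s (Y := fun _ => X ((n : ℝ) + 1)) (by linarith) hX (fun t ht => ?_) rfl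
  refine (hasDerivWithinAt_const t _ _).congr_deriv ?_
  have hz := fun j => sumEval_fieldTerm_eq_zero (isFieldTerm_field P j) (n := (n : ℤ) + 1) (t := t)
    (by push_cast; exact ht.1) (by push_cast; linarith [ht.2]) 1 (X ((n : ℝ) + 1))
  have hr : rho (4 * t - 1) = 0 :=
    rho_eq_zero (by rw [abs_of_nonneg (by linarith [ht.1])]; linarith [ht.1])
  funext i
  fin_cases i
  · show (0 : ℝ) = sumEval (P.field.component 0 ++ loadVel s.1) 1 t _
    rw [sumEval_append, hz 0, sumEval_loadVel, hr]; ring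
  · show (0 : ℝ) = sumEval (P.field.component 1 ++ loadVel s.2) 1 t _
    rw [sumEval_append, hz 1, sumEval_loadVel, hr]; ring
  · show (0 : ℝ) = sumEval (P.field.component 2) 1 t _
    rw [hz 2]

theorem trajectory_step (P : Program) (hP : P.Good) (s : Start) {X : ℝ → Fin 3 → ℝ}
    (hX : IsTrajectory (velocity P s) 0 X) (n : ℕ) (x y x₁ x' y' : ℝ)
    (h : X ((n : ℝ) + 1 / 2) = planePt x y) (hs : P.StepTo x y x₁ x' y') :
    X ((n : ℝ) + 3 / 2) = planePt x' y' ∧
      ∀ t ∈ Icc ((n : ℝ) + 1 / 2) ((n : ℝ) + 3 / 2), X t 0 ∈ uIcc x x₁ ∪ uIcc x₁ x' := by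
  obtain ⟨y₁, h1, h2, h3, h4⟩ := hs
  obtain ⟨e1, m1⟩ := moveX P hP s hX (n := n) (Or.inl ⟨rfl, rfl⟩) h1 (by convert h using 2; norm_num)
  obtain ⟨e2, m2⟩ := moveY P hP s hX (n := n) (Or.inl ⟨rfl, rfl⟩) h2 (by convert e1 using 2; norm_num)
  obtain ⟨e3, m3⟩ := moveX P hP s hX (n := n) (Or.inr ⟨rfl, rfl⟩) h3 (by convert e2 using 2; norm_num)
  obtain ⟨e4, m4⟩ := moveY P hP s hX (n := n) (Or.inr ⟨rfl, rfl⟩) h4 (by convert e3 using 2; norm_num)
  have e5 : X ((n : ℝ) + 1) = planePt x' y' := by convert e4 using 2; norm_num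
  have hid := idle P s hX n
  refine ⟨by rw [hid _ ⟨by linarith, le_rfl⟩, e5], fun t ht => ?_⟩
  norm_num at m1 m2 m3 m4
  rcases le_or_gt t ((n : ℝ) + 5 / 8) with g1 | g1
  · exact Or.inl (m1 t (by linarith [ht.1]) g1)
  rcases le_or_gt t ((n : ℝ) + 3 / 4) with g2 | g2
  · exact Or.inr (by rw [m2 t g1.le g2]; exact left_mem_uIcc)
  rcases le_or_gt t ((n : ℝ) + 7 / 8) with g3 | g3
  · exact Or.inr (m3 t g2.le g3)
  rcases le_or_gt t ((n : ℝ) + 1) with g4 | g4
  · exact Or.inr (by rw [m4 t g3.le g4]; exact right_mem_uIcc)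
  · refine Or.inr ?_
    rw [hid t ⟨g4.le, ht.2⟩, e5]
    simp [planePt]

end Vale.Agent.P113
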