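import Vale.Agent.P113.Velocity

/-! P113: the field on the plane `z = 0`. -/

namespace Vale.Agent.P113

open Set Filter Topology

theorem zBump_eval (z : ℝ) : zBump.eval z = z * plateau 6 (16 * z + 3) := by
  norm_num [Bump.eval, zBump, NzData.val, PosData.val, RatData.val]

theorem boxBump_eval (k : ℕ) (y : ℝ) : (boxBump k).eval y = y ^ k * plateau 34 (40 * y + 1) := by
  norm_num [Bump.eval, boxBump, NzData.val, PosData.val, RatData.val]

theorem selBump_eval {U : ℕ} (hU : 0 < U) {I : ℕ × ℕ} (hI : I.1 ≤ I.2) (y : ℝ) :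
    (selBump U I).eval y =
      plateau (2 * ((I.2 : ℝ) - I.1) + 2) (2 * U * y - (2 * (I.1 : ℝ) - 1)) := by
  have h1 : ((2 * U - 1 : ℕ) : ℝ) + 1 = 2 * (U : ℝ) := by
    rw [Nat.cast_sub (by omega)]; push_cast; ring
  have h2 : ((2 * (I.2 - I.1) + 1 : ℕ) : ℝ) + 1 = 2 * ((I.2 : ℝ) - I.1) + 2 := by
    push_cast [hI]; ring
  simp only [Bump.eval, selBump, NzData.val, PosData.val, RatData.val, Sum.elim_inr, pow_zero,
    one_mul, Bool.false_eq_true, if_false, Nat.cast_zero, zero_add, div_one, Nat.cast_mul,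
    Nat.cast_ofNat, Nat.cast_one, h1, h2]

theorem periodize_zBump_zero : periodize zBump.eval 0 = 0 := by
  rw [periodize_eq_self (a := -1 / 4) (b := 1 / 4) ?_ (by norm_num) (by norm_num), zBump_eval]
  · ring
  · intro x hx
    rw [zBump_eval]
    rcases hx with hx | hx
    · rw [plateau_of_le (by norm_num) (by linarith)]; ring
    · rw [plateau_of_ge (by norm_num) (by linarith)]; ring

theorem deriv_spaceProd_zBump : deriv (spaceProd [zBump]) 0 = kappa := by
  have h : spaceProd [zBump] =ᶠ[𝓝 0] fun z => kappa * z := by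
    filter_upwards [Ioo_mem_nhds (show (-1 / 8 : ℝ) < 0 by norm_num) (show (0 : ℝ) < 1 / 8 by norm_num)]
      with z hz
    simp only [spaceProd, List.map_cons, List.map_nil, List.prod_cons, List.prod_nil, mul_one]
    rw [periodize_eq_self (a := -1 / 4) (b := 1 / 4) ?_ (by linarith [hz.1]) (by linarith [hz.2]),
      zBump_eval, plateau_eq_kappa (by linarith [hz.1]) (by linarith [hz.2]), mul_comm]
    intro x hx
    rw [zBump_eval]
    rcases hx with hx | hx
    · rw [plateau_of_le (by norm_num) (by linarith)]; ring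
    · rw [plateau_of_ge (by norm_num) (by linarith)]; ring
  rw [h.deriv_eq]
  simp

theorem periodize_boxBump (k : ℕ) {y : ℝ} (h₁ : 0 ≤ y) (h₂ : y ≤ 4 / 5) :
    periodize (boxBump k).eval y = y ^ k * kappa := by
  rw [periodize_eq_self (a := -1 / 20) (b := 17 / 20) ?_ (by linarith) (by linarith), boxBump_eval,
    plateau_eq_kappa (by linarith) (by linarith)]
  intro x hx
  rw [boxBump_eval]
  rcases hx with hx | hx
  · rw [plateau_of_le (by norm_num) (by linarith)]; ring
  · rw [plateau_of_ge (by norm_num) (by linarith)]; ring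

theorem periodize_selBump {U : ℕ} (hU : 20 ≤ U) {I : ℕ × ℕ} (hI : I.1 ≤ I.2) (hI' : 5 * I.2 ≤ 4 * U)
    {y : ℝ} (h₁ : 0 ≤ y) (h₂ : y ≤ 4 / 5) :
    periodize (selBump U I).eval y =
      plateau (2 * ((I.2 : ℝ) - I.1) + 2) (2 * U * y - (2 * (I.1 : ℝ) - 1)) := by
  have hU' : (20 : ℝ) ≤ U := by exact_mod_cast hU
  have hI1 : (I.1 : ℝ) ≤ I.2 := by exact_mod_cast hI
  have hI2 : 5 * (I.2 : ℝ) ≤ 4 * U := by exact_mod_cast hI'
  have hI0 : (0 : ℝ) ≤ I.1 := Nat.cast_nonneg _
  rw [periodize_eq_self (a := -1 / 20) (b := 17 / 20) ?_ (by linarith) (by linarith),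
    selBump_eval (by omega) hI]
  intro x hx
  rw [selBump_eval (by omega) hI]
  rcases hx with hx | hx
  · exact plateau_of_le (by linarith) (by nlinarith)
  · exact plateau_of_ge (by linarith) (by nlinarith)

theorem periodize_selBump_on {U : ℕ} (hU : 20 ≤ U) {I : ℕ × ℕ} (hI : I.1 ≤ I.2)
    (hI' : 5 * I.2 ≤ 4 * U) {y : ℝ} (hy : Piece.Mem U I y) :
    periodize (selBump U I).eval y = kappa := by
  have hU' : (0 : ℝ) < U := by exact_mod_cast (show 0 < U by omega)
  have hI2 : 5 * (I.2 : ℝ) ≤ 4 * U := by exact_mod_cast hI'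
  obtain ⟨a, b⟩ := hy
  rw [div_le_iff₀ hU'] at a
  rw [le_div_iff₀ hU'] at b
  rw [periodize_selBump hU hI hI' (by nlinarith [Nat.cast_nonneg (α := ℝ) I.1]) (by nlinarith)]
  exact plateau_eq_kappa (by linarith) (by linarith)

theorem periodize_selBump_off {U : ℕ} (hU : 20 ≤ U) {I J : ℕ × ℕ} (hI : I.1 ≤ I.2) (hJ : J.1 ≤ J.2)
    (hI' : 5 * I.2 ≤ 4 * U) (hJ' : 5 * J.2 ≤ 4 * U) (hd : I.2 + 2 ≤ J.1 ∨ J.2 + 2 ≤ I.1) {y : ℝ}
    (hy : Piece.Mem U J y) : periodize (selBump U I).eval y = 0 := by
  have hU' : (0 : ℝ) < U := by exact_mod_cast (show 0 < U by omega)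
  have hI1 : (I.1 : ℝ) ≤ I.2 := by exact_mod_cast hI
  have hJ2 : 5 * (J.2 : ℝ) ≤ 4 * U := by exact_mod_cast hJ'
  obtain ⟨a, b⟩ := hy
  rw [div_le_iff₀ hU'] at a
  rw [le_div_iff₀ hU'] at b
  rw [periodize_selBump hU hI hI' (by nlinarith [Nat.cast_nonneg (α := ℝ) J.1]) (by nlinarith)]
  rcases hd with hd | hd
  · have : (I.2 : ℝ) + 2 ≤ J.1 := by exact_mod_cast hd
    exact plateau_of_ge (by linarith) (by linarith)
  · have : (J.2 : ℝ) + 2 ≤ I.1 := by exact_mod_cast hd
    exact plateau_of_le (by linarith) (by linarith)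

/-- The time profile of stage `c` on `[n, n + 1]`. -/
theorem periodize_stageBump {c : ℕ} (hc : 1 ≤ c) (hc' : c ≤ 15) (n : ℕ) {t : ℝ}
    (h₁ : (n : ℝ) ≤ t) (h₂ : t ≤ n + 1) :
    periodize (stageBump c).eval t = rho (16 * (t - n) - c) := by
  have e : periodize (stageBump c).eval t = periodize (stageBump c).eval (t - n) := by
    have := periodize_add_intCast (stageBump c).eval (t - n) n
    push_cast at this
    rwa [sub_add_cancel] at this
  have h1 : (1 : ℝ) ≤ c := by exact_mod_cast hc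
  have h15 : (c : ℝ) ≤ 15 := by exact_mod_cast hc'
  rw [e, periodize_eq_self (a := ((c : ℝ) - 1) / 16) (b := ((c : ℝ) + 1) / 16) ?_
    (by linarith) (by linarith), stageBump_eval]
  intro x hx
  rw [stageBump_eval]
  rcases hx with hx | hx
  · exact rho_eq_zero (by rw [abs_of_nonpos (by linarith)]; linarith)
  · exact rho_eq_zero (by rw [abs_of_nonneg (by linarith)]; linarith)

/-- The speed of a piece as a function of the moving coordinate. -/
noncomputable def Piece.speedVal (U : ℕ) (p : Piece) (x : ℝ) : ℝ :=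
  ((p.speed U).map fun e => e.1.val * (e.2.1.map fun r => Real.log r.val).prod * x ^ e.2.2).sum

theorem sum_map_eq_of_apart {l : List Piece} {f : Piece → ℝ} {U : ℕ}
    (hg : ∀ p ∈ l, Piece.Good U p) (hp : l.Pairwise Piece.Apart) {p : Piece} (hm : p ∈ l)
    (hz : ∀ q ∈ l, Piece.Apart q p → f q = 0) : (l.map f).sum = f p := by
  induction l with
  | nil => simp at hm
  | cons q l ih =>
    obtain ⟨hq, hl⟩ := List.pairwise_cons.1 hp
    rw [List.map_cons, List.sum_cons]
    rcases List.mem_cons.1 hm with rfl | hm'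
    · have : (l.map f).sum = 0 := List.sum_eq_zero fun y hy => by
        obtain ⟨r, hr, rfl⟩ := List.mem_map.1 hy
        exact hz r (List.mem_cons_of_mem _ hr) (Or.symm (hq r hr))
      rw [this, add_zero]
    · rw [hz q List.mem_cons_self (hq p hm'), zero_add]
      exact ih (fun r hr => hg r (List.mem_cons_of_mem _ hr)) hl hm'
        fun r hr => hz r (List.mem_cons_of_mem _ hr)

theorem stage_zero {L : List Term} {c : ℕ} (hL : ∀ a ∈ L, a.2.1 = [(true, stageBump c)]) {t : ℝ}
    (ht : periodize (stageBump c).eval t = 0) (x : V3) : sumEval (L.flatMap Term.dZ) 1 t x = 0 := by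
  rw [sumEval_flatMap]
  refine List.sum_eq_zero fun y hy => ?_
  obtain ⟨a, ha, rfl⟩ := List.mem_map.1 hy
  simp [Term.sumEval_dZ, timeProd, hL a ha, timeFactor, ht]

theorem potX_time (U c : ℕ) (l : List Piece) : ∀ a ∈ potX U c l, a.2.1 = [(true, stageBump c)] := by
  intro a ha
  obtain ⟨p, -, ha⟩ := List.mem_flatMap.1 ha
  obtain ⟨e, -, rfl⟩ := List.mem_map.1 ha
  rfl

theorem potY_time (U c : ℕ) (l : List Piece) : ∀ a ∈ potY U c l, a.2.1 = [(true, stageBump c)] := by
  intro a ha
  obtain ⟨p, -, ha⟩ := List.mem_flatMap.1 ha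
  obtain ⟨e, -, rfl⟩ := List.mem_map.1 ha
  rfl

theorem stageX_eval {U : ℕ} (hU : 20 ≤ U) {c : ℕ} {l : List Piece} (hl : Program.GoodStage U l)
    {p : Piece} (hp : p ∈ l) {x y : ℝ} (hx : 0 ≤ x) (hx' : x ≤ 4 / 5) (hy : Piece.Mem U p.sel y)
    (t : ℝ) :
    sumEval ((potX U c l).flatMap Term.dZ) 1 t (planePt x y) =
      16 / kappa * periodize (stageBump c).eval t * p.speedVal U x := by
  have h16 : RatData.val (16, 0, 0) = 16 := by simp [RatData.val]
  rw [potX, List.flatMap_assoc, sumEval_flatMap]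
  have key : ∀ q : Piece, sumEval (((q.speed U).map fun e =>
      ((Coeff.mk' (RatData.mul (16, 0, 0) e.1) 4 e.2.1, [(true, stageBump c)], [boxBump e.2.2],
        [selBump U q.sel], [zBump]) : Term)).flatMap Term.dZ) 1 t (planePt x y) =
      (16 / kappa ^ 2 * periodize (stageBump c).eval t * q.speedVal U x) *
        periodize (selBump U q.sel).eval y := by
    intro q
    rw [sumEval_flatMap, Piece.speedVal]
    simp only [List.map_map, Function.comp_def, Term.sumEval_dZ, Coeff.eval_mk', RatData.val_mul, h16,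
      timeProd, timeFactor, spaceProd, List.map_cons, List.map_nil, List.prod_cons, List.prod_nil,
      mul_one, if_true]
    simp only [planePt, Matrix.cons_val_zero, Matrix.cons_val_one, Matrix.cons_val]
    have hd : deriv (fun s => periodize zBump.eval s) 0 = kappa := by
      rw [← deriv_spaceProd_zBump]
      congr 1
      funext s
      simp [spaceProd]
    simp only [periodize_boxBump _ hx hx', ← List.sum_map_mul_left, ← List.sum_map_mul_right]
    congr 1
    refine List.map_congr_left fun e _ => ?_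
    rw [show deriv (spaceProd [zBump]) 0 = kappa from deriv_spaceProd_zBump]
    have := kappa_ne_zero
    field_simp
  simp only [key]
  rw [sum_map_eq_of_apart hl.1 hl.2 hp]
  · rw [periodize_selBump_on hU (hl.1 p hp).sel_le (hl.1 p hp).sel_bd hy]
    have := kappa_ne_zero
    field_simp
  · intro q hq ha
    rw [periodize_selBump_off hU (hl.1 q hq).sel_le (hl.1 p hp).sel_le (hl.1 q hq).sel_bd
      (hl.1 p hp).sel_bd ha hy, mul_zero]

theorem stageY_eval {U : ℕ} (hU : 20 ≤ U) {c : ℕ} {l : List Piece} (hl : Program.GoodStage U l)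
    {p : Piece} (hp : p ∈ l) {x y : ℝ} (hy : 0 ≤ y) (hy' : y ≤ 4 / 5) (hx : Piece.Mem U p.sel x)
    (t : ℝ) :
    sumEval ((potY U c l).flatMap Term.dZ) 1 t (planePt x y) =
      16 / kappa * periodize (stageBump c).eval t * p.speedVal U y := by
  have h16 : RatData.val (16, 0, 0) = 16 := by simp [RatData.val]
  rw [potY, List.flatMap_assoc, sumEval_flatMap]
  have key : ∀ q : Piece, sumEval (((q.speed U).map fun e =>
      ((Coeff.mk' (RatData.mul (16, 0, 0) e.1) 4 e.2.1, [(true, stageBump c)], [selBump U q.sel],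
        [boxBump e.2.2], [zBump]) : Term)).flatMap Term.dZ) 1 t (planePt x y) =
      (16 / kappa ^ 2 * periodize (stageBump c).eval t * q.speedVal U y) *
        periodize (selBump U q.sel).eval x := by
    intro q
    rw [sumEval_flatMap, Piece.speedVal]
    simp only [List.map_map, Function.comp_def, Term.sumEval_dZ, Coeff.eval_mk', RatData.val_mul, h16,
      timeProd, timeFactor, spaceProd, List.map_cons, List.map_nil, List.prod_cons, List.prod_nil,
      mul_one, if_true]
    simp only [planePt, Matrix.cons_val_zero, Matrix.cons_val_one, Matrix.cons_val]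
    simp only [periodize_boxBump _ hy hy', ← List.sum_map_mul_left, ← List.sum_map_mul_right]
    congr 1
    refine List.map_congr_left fun e _ => ?_
    rw [show deriv (spaceProd [zBump]) 0 = kappa from deriv_spaceProd_zBump]
    have := kappa_ne_zero
    field_simp
  simp only [key]
  rw [sum_map_eq_of_apart hl.1 hl.2 hp]
  · rw [periodize_selBump_on hU (hl.1 p hp).sel_le (hl.1 p hp).sel_bd hx]
    have := kappa_ne_zero
    field_simp
  · intro q hq ha
    rw [periodize_selBump_off hU (hl.1 q hq).sel_le (hl.1 p hp).sel_le (hl.1 q hq).sel_bd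
      (hl.1 p hp).sel_bd ha hx, mul_zero]

theorem velocity_plane (P : Program) (s : Start) {t : ℝ} (ht : 1 / 2 ≤ t) (x y : ℝ) :
    velocity P s t (planePt x y) = ![sumEval (P.potXs.flatMap Term.dZ) 1 t (planePt x y),
      sumEval (P.potYs.flatMap Term.dZ) 1 t (planePt x y), 0] := by
  have hr : rho (4 * t - 1) = 0 := rho_eq_zero (by rw [abs_of_nonneg (by linarith)]; linarith)
  have hz : ∀ L : List Term, (∀ a ∈ L, a.2.2.2.2 = [zBump]) →
      ∀ D : Fin 3, D ≠ 2 → sumEval (L.flatMap (Term.dSpace D)) 1 t (planePt x y) = 0 := by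
    intro L hL D hD
    rw [sumEval_flatMap]
    refine List.sum_eq_zero fun v hv => ?_
    obtain ⟨a, ha, rfl⟩ := List.mem_map.1 hv
    have h0 : spaceProd a.2.2.2.2 (planePt x y 2) = 0 := by
      rw [hL a ha]
      simp [spaceProd, planePt, periodize_zBump_zero]
    fin_cases D
    · show sumEval a.dX 1 t (planePt x y) = 0
      rw [Term.sumEval_dX, h0, mul_zero]
    · show sumEval a.dY 1 t (planePt x y) = 0
      rw [Term.sumEval_dY, h0, mul_zero]
    · exact absurd rfl hD
  have hX : ∀ U c l, ∀ a ∈ potX U c l, a.2.2.2.2 = [zBump] := by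
    intro U c l a ha
    obtain ⟨p, -, ha⟩ := List.mem_flatMap.1 ha
    obtain ⟨e, -, rfl⟩ := List.mem_map.1 ha
    rfl
  have hY : ∀ U c l, ∀ a ∈ potY U c l, a.2.2.2.2 = [zBump] := by
    intro U c l a ha
    obtain ⟨p, -, ha⟩ := List.mem_flatMap.1 ha
    obtain ⟨e, -, rfl⟩ := List.mem_map.1 ha
    rfl
  funext i
  fin_cases i
  · show sumEval (P.potXs.flatMap Term.dZ ++ loadVel s.1) 1 t (planePt x y) = _
    rw [sumEval_append, sumEval_loadVel, hr]
    simp
  · show sumEval (P.potYs.flatMap Term.dZ ++ loadVel s.2) 1 t (planePt x y) = _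
    rw [sumEval_append, sumEval_loadVel, hr]
    simp
  · show sumEval P.field.2.2 1 t (planePt x y) = _
    have h0 : (Term.dSpace 0) = Term.dX := rfl
    have h1 : (Term.dSpace 1) = Term.dY := rfl
    rw [Program.field, sumEval_neg, sumEval_append, ← h0, ← h1,
      hz P.potXs (fun a ha => (List.mem_append.1 ha).elim (hX _ _ _ a) (hX _ _ _ a)) 0 (by decide),
      hz P.potYs (fun a ha => (List.mem_append.1 ha).elim (hY _ _ _ a) (hY _ _ _ a)) 1 (by decide)]
    simp

end Vale.Agent.P113
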