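import Vale.Agent.P113.Defs

/-!
P113: interface between the discrete side (machines to programs) and the analytic side
(programs to forces and flows).

A program is a unit `1/U` and four stages.  Stage 1 and 3 move `x` and are selected by `y`;
stage 2 and 4 move `y` and are selected by `x`.  A piece is `(sel, src, dst)`, each an interval
with natural end points in units `1/U`; it moves `src` affinely and increasingly onto `dst`.

Time: loading in `(0, 1/2)`; the four stages of the period `n` in the windows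
`[n + 1/2 + (i-1)/8, n + 1/2 + i/8]`, `i = 1,…,4`.
-/

namespace Vale.Agent.P113

abbrev Piece : Type := (ℕ × ℕ) × (ℕ × ℕ) × (ℕ × ℕ)

/-- `(U, stage₁, stage₂, stage₃, stage₄)` -/
abbrev Program : Type := ℕ × List Piece × List Piece × List Piece × List Piece

namespace Piece

def sel (p : Piece) : ℕ × ℕ := p.1
def src (p : Piece) : ℕ × ℕ := p.2.1
def dst (p : Piece) : ℕ × ℕ := p.2.2

/-- `s` lies in the interval `I`, in units `1/U`. -/
def Mem (U : ℕ) (I : ℕ × ℕ) (s : ℝ) : Prop :=
  (I.1 : ℝ) / U ≤ s ∧ s ≤ (I.2 : ℝ) / U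

/-- The affine map of `src` onto `dst`. -/
noncomputable def map (U : ℕ) (p : Piece) (s : ℝ) : ℝ :=
  (p.dst.1 : ℝ) / U +
    ((p.dst.2 : ℝ) - p.dst.1) / ((p.src.2 : ℝ) - p.src.1) * (s - (p.src.1 : ℝ) / U)

/-- Well-formed piece: everything inside `[0, 4/5]`. -/
structure Good (U : ℕ) (p : Piece) : Prop where
  sel_le : p.sel.1 ≤ p.sel.2
  src_lt : p.src.1 < p.src.2
  dst_lt : p.dst.1 < p.dst.2
  sel_bd : 5 * p.sel.2 ≤ 4 * U
  src_bd : 5 * p.src.2 ≤ 4 * U
  dst_bd : 5 * p.dst.2 ≤ 4 * U

/-- Selectors of different pieces are at least two units apart. -/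
def Apart (p q : Piece) : Prop := p.sel.2 + 2 ≤ q.sel.1 ∨ q.sel.2 + 2 ≤ p.sel.1

/-- `p` acts on a point with moving coordinate `s` and selecting coordinate `o`,
sending `s` to `s'`. -/
def Acts (U : ℕ) (p : Piece) (s o s' : ℝ) : Prop :=
  Mem U p.src s ∧ Mem U p.sel o ∧ s' = p.map U s

end Piece

namespace Program

def U (P : Program) : ℕ := P.1
def stage1 (P : Program) : List Piece := P.2.1
def stage2 (P : Program) : List Piece := P.2.2.1
def stage3 (P : Program) : List Piece := P.2.2.2.1
def stage4 (P : Program) : List Piece := P.2.2.2.2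

def GoodStage (U : ℕ) (l : List Piece) : Prop :=
  (∀ p ∈ l, Piece.Good U p) ∧ l.Pairwise Piece.Apart

structure Good (P : Program) : Prop where
  U_large : 20 ≤ P.U
  good1 : GoodStage P.U P.stage1
  good2 : GoodStage P.U P.stage2
  good3 : GoodStage P.U P.stage3
  good4 : GoodStage P.U P.stage4

/-- One period sends `(x, y)` to `(x', y')`, with `x₁` the value of `x` after stage 1. -/
def StepTo (P : Program) (x y x₁ x' y' : ℝ) : Prop :=
  ∃ y₁ : ℝ,
    (∃ p ∈ P.stage1, Piece.Acts P.U p x y x₁) ∧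
    (∃ p ∈ P.stage2, Piece.Acts P.U p y x₁ y₁) ∧
    (∃ p ∈ P.stage3, Piece.Acts P.U p x₁ y₁ x') ∧
    (∃ p ∈ P.stage4, Piece.Acts P.U p y₁ x' y')

end Program

/-- A point of the loading target, given by data of two rationals. -/
abbrev Start : Type := RatData × RatData

noncomputable def Start.pt (s : Start) : ℝ × ℝ := (s.1.val, s.2.val)

/-- The point `(x, y, 0)`. -/
noncomputable def planePt (x y : ℝ) : Fin 3 → ℝ := ![x, y, 0]

/-
TO BE PROVIDED BY THE ANALYTIC SIDE (helper8):

def forces : Program × Start → Forces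
theorem forces_primrec : Primrec forces            -- (Computable suffices)
theorem forces_periodic (P : Program) (s s' : Start) (i) :
    ((forces (P, s)).component i).filter Term.isPeriodic
      = ((forces (P, s')).component i).filter Term.isPeriodic
theorem forces_vanish (P s i) : ∀ τ ∈ (forces (P, s)).component i, τ.isPeriodic = false →
    ∀ t, 1 ≤ t → ∀ ν x, τ.eval ν t x = 0
noncomputable def velocity : Program → Start → ℝ → (Fin 3 → ℝ) → Fin 3 → ℝ
theorem velocity_solution (P s) (hP : P.Good) (ν) (hν : 0 < ν) :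
    ∃ p, (smooth u) ∧ (smooth p) ∧ ∀ T > 0, IsClassicalSolution ν ((forces (P,s)).eval ν) T (velocity P s) p ∧ uniqueness
theorem trajectory_exists (P s) : ∃ X, IsTrajectory (velocity P s) 0 X
theorem trajectory_load (hP : P.Good) (hX : IsTrajectory (velocity P s) 0 X) :
    X (1/2) = planePt s.pt.1 s.pt.2 ∧ ∀ t ∈ Icc 0 (1/2), X t 0 ∈ Set.uIcc 0 s.pt.1
theorem trajectory_step (hP : P.Good) (hX) (n : ℕ) (x y x₁ x' y')
    (h : X (n + 1/2) = planePt x y) (hs : P.StepTo x y x₁ x' y') :
    X (n + 3/2) = planePt x' y' ∧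
    ∀ t ∈ Icc (n+1/2) (n+3/2), X t 0 ∈ Set.uIcc x x₁ ∪ Set.uIcc x₁ x'
-/

end Vale.Agent.P113
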