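import Vale.Agent.P113.Program

/-!
P113: operations on the syntax of admissible terms (sums, products, partial derivatives) and the
force attached to a program and a starting point.
-/

namespace Vale.Agent.P113

/-! ## Numerical data -/

namespace RatData

/-- Product of rationals. -/
def mul (r s : RatData) : RatData :=
  (r.1 * s.1 + r.2.1 * s.2.1, r.1 * s.2.1 + r.2.1 * s.1, r.2.2 * s.2.2 + r.2.2 + s.2.2)

/-- Opposite. -/
def neg (r : RatData) : RatData := (r.2.1, r.1, r.2.2)

/-- Sum with a positive rational. -/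
def addPos (r : RatData) (l : PosData) : RatData :=
  (r.1 * (l.2 + 1) + (l.1 + 1) * (r.2.2 + 1), r.2.1 * (l.2 + 1), r.2.2 * l.2 + r.2.2 + l.2)

end RatData

/-- A nonzero rational as a rational. -/
def NzData.toRat (a : NzData) : RatData :=
  cond a.1 (0, a.2.1 + 1, a.2.2) (a.2.1 + 1, 0, a.2.2)

namespace Coeff

/-- Product of coefficients. -/
def mul (c d : Coeff) : Coeff :=
  (c.1.mul d.1, c.2.1 + d.2.1, (c.2.2.1.1 + d.2.2.1.1, c.2.2.1.2 + d.2.2.1.2), c.2.2.2 ++ d.2.2.2)

/-- Multiplication by a rational. -/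
def scale (r : RatData) (c : Coeff) : Coeff := (r.mul c.1, c.2.1, c.2.2)

/-- Opposite. -/
def neg (c : Coeff) : Coeff := (c.1.neg, c.2.1, c.2.2)

/-- Multiplication by `-ν`. -/
def negNu (c : Coeff) : Coeff := (c.1.neg, c.2.1 + 1, c.2.2)

/-- The coefficient `r / κ ^ n * ∏ ln`. -/
def mk' (r : RatData) (n : ℕ) (rs : List PosData) : Coeff := (r, 0, (0, n), rs)

end Coeff

/-! ## Derivatives -/

/-- The derivative of a bump as a combination of bumps. -/
def Bump.dlist (g : Bump) : List (RatData × Bump) :=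
  ((g.1, 0, 0), (g.1 - 1, g.2)) ::
    Sum.casesOn g.2.2.2 (fun j => [(g.2.1.toRat, (g.1, g.2.1, g.2.2.1, Sum.inl (j + 1)))])
      fun l => [(g.2.1.toRat, (g.1, g.2.1, g.2.2.1, Sum.inl 0)),
        (g.2.1.toRat.neg, (g.1, g.2.1, g.2.2.1.addPos l, Sum.inl 0))]

/-- The derivative of a time factor. -/
def timeDlist (g : Bool × Bump) : List (RatData × (Bool × Bump)) :=
  (Bump.dlist g.2).map fun e => (e.1, g.1, e.2)

/-- Auxiliary for the product rule: the list and the terms of the derivative of its product. -/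
def dProdAux {α : Type} (D : α → List (RatData × α)) (l : List α) :
    List α × List (RatData × List α) :=
  l.foldr (fun g s => (g :: s.1, ((D g).map fun e => (e.1, e.2 :: s.1)) ++
    s.2.map fun e => (e.1, g :: e.2))) ([], [])

/-- The product rule. -/
def dProd {α : Type} (D : α → List (RatData × α)) (l : List α) : List (RatData × List α) :=
  (dProdAux D l).2

namespace Term

/-- Product of terms. -/
def mul (a b : Term) : Term :=
  (a.1.mul b.1, a.2.1 ++ b.2.1, a.2.2.1 ++ b.2.2.1, a.2.2.2.1 ++ b.2.2.2.1,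
    a.2.2.2.2 ++ b.2.2.2.2)

/-- Opposite. -/
def neg (a : Term) : Term := (a.1.neg, a.2)

/-- Multiplication by `-ν`. -/
def negNu (a : Term) : Term := (a.1.negNu, a.2)

/-- Time derivative. -/
def dT (a : Term) : List Term :=
  (dProd timeDlist a.2.1).map fun e => (a.1.scale e.1, e.2, a.2.2)

/-- Derivative in the first coordinate. -/
def dX (a : Term) : List Term :=
  (dProd Bump.dlist a.2.2.1).map fun e => (a.1.scale e.1, a.2.1, e.2, a.2.2.2)

/-- Derivative in the second coordinate. -/
def dY (a : Term) : List Term :=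
  (dProd Bump.dlist a.2.2.2.1).map fun e => (a.1.scale e.1, a.2.1, a.2.2.1, e.2, a.2.2.2.2)

/-- Derivative in the third coordinate. -/
def dZ (a : Term) : List Term :=
  (dProd Bump.dlist a.2.2.2.2).map fun e => (a.1.scale e.1, a.2.1, a.2.2.1, a.2.2.2.1, e.2)

end Term

/-- Product of two sums of terms. -/
def mulSum (L K : List Term) : List Term := L.flatMap fun a => K.map fun b => a.mul b

/-- The force component `∂ₜw + u · ∇w - ν Δw` attached to a component `w` of the field `u`. -/
def forceOf (u : Forces) (w : List Term) : List Term :=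
  w.flatMap Term.dT ++ (mulSum u.1 (w.flatMap Term.dX) ++ (mulSum u.2.1 (w.flatMap Term.dY) ++
    (mulSum u.2.2 (w.flatMap Term.dZ) ++
      ((w.flatMap Term.dX).flatMap Term.dX ++ ((w.flatMap Term.dY).flatMap Term.dY ++
        (w.flatMap Term.dZ).flatMap Term.dZ)).map Term.negNu)))

/-! ## The field of a program -/

/-- The bump of stage `i`: `16 / κ * ρ (16 t - c)` with odd centre `c = 9, 11, 13, 15`. -/
def stageBump (c : ℕ) : Bump := (0, (false, 15, 0), (c, 0, 0), Sum.inl 0)

/-- `π_ℓ (a s - b)` equal to `κ` on a selector and to `0` one unit away from it. -/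
def selBump (U : ℕ) (I : ℕ × ℕ) : Bump :=
  (0, (false, 2 * U - 1, 0), (2 * I.1, 1, 0), Sum.inr (2 * (I.2 - I.1) + 1, 0))

/-- `s ^ k π₃₄ (40 s + 1)`, equal to `κ s ^ k` on `[0, 4/5]`. -/
def boxBump (k : ℕ) : Bump := (k, (false, 39, 0), (0, 1, 0), Sum.inr (33, 0))

/-- `z π₆ (16 z + 3)`, equal to `κ z` near `0`. -/
def zBump : Bump := (1, (false, 15, 0), (0, 3, 0), Sum.inr (5, 0))

/-- Minus the fixed point of the map of a piece that changes lengths. -/
def Piece.negFix (U : ℕ) (p : Piece) : RatData :=
  if p.dst.2 - p.dst.1 < p.src.2 - p.src.1 then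
    ((p.dst.2 - p.dst.1) * p.src.1, p.dst.1 * (p.src.2 - p.src.1),
      ((p.src.2 - p.src.1) - (p.dst.2 - p.dst.1)) * U - 1)
  else
    (p.dst.1 * (p.src.2 - p.src.1), (p.dst.2 - p.dst.1) * p.src.1,
      ((p.dst.2 - p.dst.1) - (p.src.2 - p.src.1)) * U - 1)

/-- The ratio of lengths. -/
def Piece.ratio (p : Piece) : PosData := (p.dst.2 - p.dst.1 - 1, p.src.2 - p.src.1 - 1)

/-- The coefficients and powers of the speed of a piece on `[0, 4/5]`. -/
def Piece.speed (U : ℕ) (p : Piece) : List (RatData × List PosData × ℕ) :=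
  if p.dst.2 - p.dst.1 = p.src.2 - p.src.1 then [((p.dst.1, p.src.1, U - 1), [], 0)]
  else [((1, 0, 0), [p.ratio], 1), (p.negFix U, [p.ratio], 0)]

/-- The potential of a stage moving `x`: `θ(t) φ(y) F(x) z`, normalized by `κ ^ 4`. -/
def potX (U c : ℕ) (l : List Piece) : List Term :=
  l.flatMap fun p => (p.speed U).map fun e =>
    (Coeff.mk' (RatData.mul (16, 0, 0) e.1) 4 e.2.1, [(true, stageBump c)], [boxBump e.2.2],
      [selBump U p.sel], [zBump])

/-- The potential of a stage moving `y`. -/
def potY (U c : ℕ) (l : List Piece) : List Term :=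
  l.flatMap fun p => (p.speed U).map fun e =>
    (Coeff.mk' (RatData.mul (16, 0, 0) e.1) 4 e.2.1, [(true, stageBump c)], [selBump U p.sel],
      [boxBump e.2.2], [zBump])

/-- Both stages moving `x`. -/
def Program.potXs (P : Program) : List Term := potX P.U 9 P.stage1 ++ potX P.U 13 P.stage3

/-- Both stages moving `y`. -/
def Program.potYs (P : Program) : List Term := potY P.U 11 P.stage2 ++ potY P.U 15 P.stage4

/-- The periodic part of the field. -/
def Program.field (P : Program) : Forces :=
  (P.potXs.flatMap Term.dZ, P.potYs.flatMap Term.dZ,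
    (P.potXs.flatMap Term.dX ++ P.potYs.flatMap Term.dY).map Term.neg)

/-- The derivative of the loading field in one component. -/
def loadForce (r : RatData) : List Term :=
  [(Coeff.mk' (RatData.mul (16, 0, 0) r) 1 [], [(false, (0, (false, 3, 0), (1, 0, 0), Sum.inl 1))],
    [], [], [])]

/-- The force of a program and a starting point. -/
def forces (Q : Program × Start) : Forces :=
  (forceOf Q.1.field Q.1.field.1 ++ loadForce Q.2.1,
    forceOf Q.1.field Q.1.field.2.1 ++ loadForce Q.2.2,
    forceOf Q.1.field Q.1.field.2.2)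

end Vale.Agent.P113
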