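import Vale.Agent.P113.Syntax

/-! P113: the force of a program is computed by a primitive recursive function. -/

namespace Vale.Agent.P113

open Primrec

theorem ratMul_primrec : Primrec₂ RatData.mul := by
  refine pair (nat_add.comp (nat_mul.comp (fst.comp fst) (fst.comp snd))
    (nat_mul.comp (fst.comp (snd.comp fst)) (fst.comp (snd.comp snd)))) (pair
    (nat_add.comp (nat_mul.comp (fst.comp fst) (fst.comp (snd.comp snd)))
      (nat_mul.comp (fst.comp (snd.comp fst)) (fst.comp snd)))
    (nat_add.comp (nat_add.comp (nat_mul.comp (snd.comp (snd.comp fst)) (snd.comp (snd.comp snd)))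
      (snd.comp (snd.comp fst))) (snd.comp (snd.comp snd))))

theorem ratNeg_primrec : Primrec RatData.neg :=
  pair (fst.comp snd) (pair fst (snd.comp snd))

theorem ratAddPos_primrec : Primrec₂ RatData.addPos := by
  refine pair (nat_add.comp (nat_mul.comp (fst.comp fst) (succ.comp (snd.comp snd)))
    (nat_mul.comp (succ.comp (fst.comp snd)) (succ.comp (snd.comp (snd.comp fst))))) (pair
    (nat_mul.comp (fst.comp (snd.comp fst)) (succ.comp (snd.comp snd)))
    (nat_add.comp (nat_add.comp (nat_mul.comp (snd.comp (snd.comp fst)) (snd.comp snd))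
      (snd.comp (snd.comp fst))) (snd.comp snd)))

theorem nzToRat_primrec : Primrec NzData.toRat :=
  Primrec.cond fst (pair (const 0) (pair (succ.comp (fst.comp snd)) (snd.comp snd)))
    (pair (succ.comp (fst.comp snd)) (pair (const 0) (snd.comp snd)))

theorem coeffMul_primrec : Primrec₂ Coeff.mul :=
  pair (ratMul_primrec.comp (fst.comp fst) (fst.comp snd))
    (pair (nat_add.comp (fst.comp (snd.comp fst)) (fst.comp (snd.comp snd)))
      (pair (pair (nat_add.comp (fst.comp (fst.comp (snd.comp (snd.comp fst))))
          (fst.comp (fst.comp (snd.comp (snd.comp snd)))))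
        (nat_add.comp (snd.comp (fst.comp (snd.comp (snd.comp fst))))
          (snd.comp (fst.comp (snd.comp (snd.comp snd))))))
        (list_append.comp (snd.comp (snd.comp (snd.comp fst))) (snd.comp (snd.comp (snd.comp snd))))))

theorem coeffScale_primrec : Primrec₂ Coeff.scale :=
  pair (ratMul_primrec.comp fst (fst.comp snd)) (snd.comp snd)

theorem dlist_primrec : Primrec Bump.dlist := by
  have hb : Primrec fun g : Bump => g.2.2.2 := snd.comp (snd.comp snd)
  refine list_cons.comp (pair (pair fst (const (0, 0))) (pair (nat_sub.comp fst (const 1)) snd)) ?_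
  refine sumCasesOn hb ?_ ?_
  · exact list_cons.comp (pair (nzToRat_primrec.comp (fst.comp (snd.comp fst))) (pair (fst.comp fst)
      (pair (fst.comp (snd.comp fst)) (pair (fst.comp (snd.comp (snd.comp fst)))
        (sumInl.comp (succ.comp snd)))))) (const [])
  · exact list_cons.comp (pair (nzToRat_primrec.comp (fst.comp (snd.comp fst))) (pair (fst.comp fst)
      (pair (fst.comp (snd.comp fst)) (pair (fst.comp (snd.comp (snd.comp fst)))
        (sumInl.comp (const 0))))))
      (list_cons.comp (pair (ratNeg_primrec.comp (nzToRat_primrec.comp (fst.comp (snd.comp fst))))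
        (pair (fst.comp fst) (pair (fst.comp (snd.comp fst))
          (pair (ratAddPos_primrec.comp (fst.comp (snd.comp (snd.comp fst))) snd)
            (sumInl.comp (const 0)))))) (const []))

theorem timeDlist_primrec : Primrec timeDlist :=
  list_map (dlist_primrec.comp snd) (pair (fst.comp snd) (pair (fst.comp fst) (snd.comp snd))).to₂

theorem dProd_primrec {α : Type} [Primcodable α] {D : α → List (RatData × α)} (hD : Primrec D) :
    Primrec (dProd D) := by
  have hg : Primrec fun (q : List α × α × List α × List (RatData × List α)) =>
      ((q.2.1 :: q.2.2.1, ((D q.2.1).map fun e => (e.1, e.2 :: q.2.2.1)) ++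
        q.2.2.2.map fun e => (e.1, q.2.1 :: e.2)) : List α × List (RatData × List α)) :=
    pair (list_cons.comp (fst.comp snd) (fst.comp (snd.comp snd)))
      (list_append.comp (list_map (hD.comp (fst.comp snd))
        (pair (fst.comp snd) (list_cons.comp (snd.comp snd)
          (fst.comp (snd.comp (snd.comp fst))))).to₂)
        (list_map (snd.comp (snd.comp snd))
          (pair (fst.comp snd) (list_cons.comp (fst.comp (snd.comp fst)) (snd.comp snd))).to₂))
  exact snd.comp (list_foldr Primrec.id (const ([], [])) hg.to₂)

theorem termMul_primrec : Primrec₂ Term.mul :=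
  pair (coeffMul_primrec.comp (fst.comp fst) (fst.comp snd))
    (pair (list_append.comp (fst.comp (snd.comp fst)) (fst.comp (snd.comp snd)))
      (pair (list_append.comp (fst.comp (snd.comp (snd.comp fst))) (fst.comp (snd.comp (snd.comp snd))))
        (pair (list_append.comp (fst.comp (snd.comp (snd.comp (snd.comp fst))))
          (fst.comp (snd.comp (snd.comp (snd.comp snd)))))
          (list_append.comp (snd.comp (snd.comp (snd.comp (snd.comp fst))))
            (snd.comp (snd.comp (snd.comp (snd.comp snd))))))))

theorem termNeg_primrec : Primrec Term.neg :=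
  pair (pair (ratNeg_primrec.comp (fst.comp fst)) (snd.comp fst)) snd

theorem termNegNu_primrec : Primrec Term.negNu :=
  pair (pair (ratNeg_primrec.comp (fst.comp fst))
    (pair (succ.comp (fst.comp (snd.comp fst))) (snd.comp (snd.comp fst)))) snd

theorem dT_primrec : Primrec Term.dT :=
  list_map ((dProd_primrec timeDlist_primrec).comp (fst.comp snd))
    (pair (coeffScale_primrec.comp (fst.comp snd) (fst.comp fst))
      (pair (snd.comp snd) (snd.comp (snd.comp fst)))).to₂

theorem dX_primrec : Primrec Term.dX :=
  list_map ((dProd_primrec dlist_primrec).comp (fst.comp (snd.comp snd)))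
    (pair (coeffScale_primrec.comp (fst.comp snd) (fst.comp fst))
      (pair (fst.comp (snd.comp fst))
        (pair (snd.comp snd) (snd.comp (snd.comp (snd.comp fst)))))).to₂

theorem dY_primrec : Primrec Term.dY :=
  list_map ((dProd_primrec dlist_primrec).comp (fst.comp (snd.comp (snd.comp snd))))
    (pair (coeffScale_primrec.comp (fst.comp snd) (fst.comp fst))
      (pair (fst.comp (snd.comp fst)) (pair (fst.comp (snd.comp (snd.comp fst)))
        (pair (snd.comp snd) (snd.comp (snd.comp (snd.comp (snd.comp fst)))))))).to₂

theorem dZ_primrec : Primrec Term.dZ :=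
  list_map ((dProd_primrec dlist_primrec).comp (snd.comp (snd.comp (snd.comp snd))))
    (pair (coeffScale_primrec.comp (fst.comp snd) (fst.comp fst))
      (pair (fst.comp (snd.comp fst)) (pair (fst.comp (snd.comp (snd.comp fst)))
        (pair (fst.comp (snd.comp (snd.comp (snd.comp fst)))) (snd.comp snd))))).to₂

theorem mulSum_primrec : Primrec₂ mulSum :=
  list_flatMap fst (list_map (snd.comp fst) (termMul_primrec.comp (snd.comp fst) snd).to₂).to₂

theorem forceOf_primrec : Primrec₂ forceOf := by
  have hw : ∀ {D : Term → List Term}, Primrec D → Primrec fun q : Forces × List Term => q.2.flatMap D :=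
    fun h => list_flatMap snd (h.comp snd).to₂
  have hh : ∀ {D : Term → List Term}, Primrec D →
      Primrec fun q : Forces × List Term => (q.2.flatMap D).flatMap D :=
    fun h => list_flatMap (hw h) (h.comp snd).to₂
  exact list_append.comp (hw dT_primrec)
    (list_append.comp (mulSum_primrec.comp (fst.comp fst) (hw dX_primrec))
      (list_append.comp (mulSum_primrec.comp (fst.comp (snd.comp fst)) (hw dY_primrec))
        (list_append.comp (mulSum_primrec.comp (snd.comp (snd.comp fst)) (hw dZ_primrec))
          (list_map (list_append.comp (hh dX_primrec) (list_append.comp (hh dY_primrec) (hh dZ_primrec)))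
            (termNegNu_primrec.comp snd).to₂))))

theorem selBump_primrec : Primrec₂ selBump :=
  pair (const 0) (pair (pair (const false) (pair (nat_sub.comp (nat_mul.comp (const 2) fst) (const 1)) (const 0)))
    (pair (pair (nat_mul.comp (const 2) (fst.comp snd)) (const (1, 0)))
      (sumInr.comp (pair (succ.comp (nat_mul.comp (const 2)
        (nat_sub.comp (snd.comp snd) (fst.comp snd)))) (const 0)))))

theorem boxBump_primrec : Primrec boxBump :=
  pair Primrec.id (const ((false, 39, 0), (0, 1, 0), Sum.inr (33, 0)))

theorem pieceSpeed_primrec : Primrec₂ Piece.speed := by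
  have sA : Primrec fun q : ℕ × Piece => q.2.2.1.1 := fst.comp (fst.comp (snd.comp snd))
  have sB : Primrec fun q : ℕ × Piece => q.2.2.1.2 := snd.comp (fst.comp (snd.comp snd))
  have dA : Primrec fun q : ℕ × Piece => q.2.2.2.1 := fst.comp (snd.comp (snd.comp snd))
  have dB : Primrec fun q : ℕ × Piece => q.2.2.2.2 := snd.comp (snd.comp (snd.comp snd))
  have sL := nat_sub.comp sB sA
  have dL := nat_sub.comp dB dA
  have hr : Primrec fun q : ℕ × Piece => [q.2.ratio] :=
    list_cons.comp (pair (nat_sub.comp dL (const 1)) (nat_sub.comp sL (const 1))) (const [])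
  have hf : Primrec fun q : ℕ × Piece => q.2.negFix q.1 :=
    Primrec.ite (nat_lt.comp dL sL)
      (pair (nat_mul.comp dL sA) (pair (nat_mul.comp dA sL)
        (nat_sub.comp (nat_mul.comp (nat_sub.comp sL dL) fst) (const 1))))
      (pair (nat_mul.comp dA sL) (pair (nat_mul.comp dL sA)
        (nat_sub.comp (nat_mul.comp (nat_sub.comp dL sL) fst) (const 1))))
  exact Primrec.ite (Primrec.eq.comp dL sL)
    (list_cons.comp (pair (pair dA (pair sA (nat_sub.comp fst (const 1)))) (const ([], 0))) (const []))
    (list_cons.comp (pair (const (1, 0, 0)) (pair hr (const 1)))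
      (list_cons.comp (pair hf (pair hr (const 0))) (const [])))

theorem potX_primrec : Primrec fun q : (ℕ × ℕ) × List Piece => potX q.1.1 q.1.2 q.2 := by
  suffices hg : Primrec₂ fun (q : ((ℕ × ℕ) × List Piece) × Piece) (e : RatData × List PosData × ℕ) =>
      ((Coeff.mk' (RatData.mul (16, 0, 0) e.1) 4 e.2.1, [(true, stageBump q.1.1.2)], [boxBump e.2.2], [selBump q.1.1.1 q.2.sel],
        [zBump]) : Term) from
    list_flatMap snd
      ((list_map (f := fun q : ((ℕ × ℕ) × List Piece) × Piece => q.2.speed q.1.1.1)
        (pieceSpeed_primrec.comp (fst.comp (fst.comp fst)) snd) hg).to₂)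
  exact (pair (pair (ratMul_primrec.comp (const (16, 0, 0)) (fst.comp snd))
      (pair (const 0) (pair (const (0, 4)) (fst.comp (snd.comp snd)))))
    (pair (list_cons.comp (pair (const true) (pair (const 0) (pair (const (false, 15, 0))
        (pair (pair (snd.comp (fst.comp (fst.comp fst))) (const (0, 0))) (const (Sum.inl 0))))))
        (const []))
      (pair (list_cons.comp (boxBump_primrec.comp (snd.comp (snd.comp snd))) (const []))
        (pair (list_cons.comp (selBump_primrec.comp (fst.comp (fst.comp (fst.comp fst)))
          (fst.comp (snd.comp fst))) (const [])) (const [zBump]))))).to₂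

theorem potY_primrec : Primrec fun q : (ℕ × ℕ) × List Piece => potY q.1.1 q.1.2 q.2 := by
  suffices hg : Primrec₂ fun (q : ((ℕ × ℕ) × List Piece) × Piece) (e : RatData × List PosData × ℕ) =>
      ((Coeff.mk' (RatData.mul (16, 0, 0) e.1) 4 e.2.1, [(true, stageBump q.1.1.2)], [selBump q.1.1.1 q.2.sel], [boxBump e.2.2],
        [zBump]) : Term) from
    list_flatMap snd
      ((list_map (f := fun q : ((ℕ × ℕ) × List Piece) × Piece => q.2.speed q.1.1.1)
        (pieceSpeed_primrec.comp (fst.comp (fst.comp fst)) snd) hg).to₂)
  exact (pair (pair (ratMul_primrec.comp (const (16, 0, 0)) (fst.comp snd))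
      (pair (const 0) (pair (const (0, 4)) (fst.comp (snd.comp snd)))))
    (pair (list_cons.comp (pair (const true) (pair (const 0) (pair (const (false, 15, 0))
        (pair (pair (snd.comp (fst.comp (fst.comp fst))) (const (0, 0))) (const (Sum.inl 0))))))
        (const []))
      (pair (list_cons.comp (selBump_primrec.comp (fst.comp (fst.comp (fst.comp fst)))
          (fst.comp (snd.comp fst))) (const []))
        (pair (list_cons.comp (boxBump_primrec.comp (snd.comp (snd.comp snd))) (const []))
          (const [zBump]))))).to₂

theorem field_primrec : Primrec Program.field := by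
  have s1 : Primrec fun P : Program => P.2.1 := fst.comp snd
  have s2 : Primrec fun P : Program => P.2.2.1 := fst.comp (snd.comp snd)
  have s3 : Primrec fun P : Program => P.2.2.2.1 := fst.comp (snd.comp (snd.comp snd))
  have s4 : Primrec fun P : Program => P.2.2.2.2 := snd.comp (snd.comp (snd.comp snd))
  have hx : Primrec Program.potXs :=
    list_append.comp (potX_primrec.comp (pair (pair fst (const 9)) s1))
      (potX_primrec.comp (pair (pair fst (const 13)) s3))
  have hy : Primrec Program.potYs :=
    list_append.comp (potY_primrec.comp (pair (pair fst (const 11)) s2))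
      (potY_primrec.comp (pair (pair fst (const 15)) s4))
  exact pair (list_flatMap hx (dZ_primrec.comp snd).to₂)
    (pair (list_flatMap hy (dZ_primrec.comp snd).to₂)
      (list_map (list_append.comp (list_flatMap hx (dX_primrec.comp snd).to₂)
        (list_flatMap hy (dY_primrec.comp snd).to₂)) (termNeg_primrec.comp snd).to₂))

theorem forces_primrec : Primrec forces := by
  have hF : Primrec fun Q : Program × Start => Q.1.field := field_primrec.comp fst
  have hl : Primrec loadForce :=
    list_cons.comp (pair (pair (ratMul_primrec.comp (const (16, 0, 0)) Primrec.id)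
      (const (0, (0, 1), []))) (const ([(false, (0, (false, 3, 0), (1, 0, 0), Sum.inl 1))], [], [], [])))
      (const [])
  exact pair (list_append.comp (forceOf_primrec.comp hF (fst.comp hF)) (hl.comp (fst.comp snd)))
    (pair (list_append.comp (forceOf_primrec.comp hF (fst.comp (snd.comp hF))) (hl.comp (snd.comp snd)))
      (forceOf_primrec.comp hF (snd.comp (snd.comp hF))))

end Vale.Agent.P113
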