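import Vale.Agent.P113.Cube
import Vale.Agent.P113.Defs

/-! Uniqueness of classical solutions, by the energy method. -/

namespace Vale.Agent.P113

open Set Filter Topology MeasureTheory

theorem pd_sub {F G : V3 → ℝ} {i : Fin 3} {x : V3}
    (hF : DifferentiableAt ℝ (fun s => F (Function.update x i s)) (x i))
    (hG : DifferentiableAt ℝ (fun s => G (Function.update x i s)) (x i)) :
    pdc i (fun y => F y - G y) x = pdc i F x - pdc i G x := by
  unfold pdc
  exact deriv_fun_sub hF hG

theorem hasDerivAt_pd {F : V3 → ℝ} {i : Fin 3} {x : V3}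
    (hF : DifferentiableAt ℝ (fun s => F (Function.update x i s)) (x i)) :
    HasDerivAt (fun s => F (Function.update x i s)) (pdc i F x) (x i) := hF.hasDerivAt

theorem eq_of_pd_eq_zero {F : V3 → ℝ}
    (hd : ∀ x i, DifferentiableAt ℝ (fun s => F (Function.update x i s)) (x i))
    (h : ∀ x i, pdc i F x = 0) (x y : V3) : F x = F y := by
  have line : ∀ (z : V3) (i : Fin 3) (r : ℝ), F (Function.update z i r) = F z := by
    intro z i r
    have hdiff : Differentiable ℝ fun s => F (Function.update z i s) := by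
      intro s
      have := hd (Function.update z i s) i
      simpa using this
    have hz : ∀ s, deriv (fun s => F (Function.update z i s)) s = 0 := by
      intro s
      have := h (Function.update z i s) i
      simpa [pdc] using this
    have := is_const_of_deriv_eq_zero hdiff hz r (z i)
    simpa using this
  have : x = Function.update (Function.update (Function.update y 0 (x 0)) 1 (x 1)) 2 (x 2) := by
    ext i; fin_cases i <;> simp [Function.update]
  rw [this, line, line, line]

theorem pdc_eq_pd {F : V3 → ℝ} {x : V3} (hF : DifferentiableAt ℝ F x) (i : Fin 3) :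
    pdc i F x = pd i F x := by
  have hu := hasDerivAt_update x i (x i)
  have hF' : HasFDerivAt F (fderiv ℝ F x) (Function.update x i (x i)) := by
    simpa using hF.hasFDerivAt
  exact (hF'.comp_hasDerivAt (x i) hu).deriv

theorem differentiableAt_slice {F : V3 → ℝ} (hF : Differentiable ℝ F) (x : V3) (i : Fin 3) :
    DifferentiableAt ℝ (fun s => F (Function.update x i s)) (x i) :=
  (hF.differentiableAt).comp (x i) (hasDerivAt_update x i (x i)).differentiableAt

theorem periodic3_of_torus {α : Type} {F : V3 → α} (hF : IsTorusFun F) : Periodic3 F := by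
  intro x i
  have h := hF x (Pi.single i 1)
  rw [← h]
  congr 1
  ext j
  rcases eq_or_ne j i with rfl | hj
  · simp
  · simp [hj]

theorem contDiff_pd {F : V3 → ℝ} (hF : ContDiff ℝ 2 F) (i : Fin 3) : ContDiff ℝ 1 (pd i F) :=
  (hF.fderiv_right (by norm_num)).clm_apply contDiff_const

section
variable {nu : ℝ} {f : ℝ → V3 → Fin 3 → ℝ} {T : ℝ}
  {u v : ℝ → V3 → Fin 3 → ℝ} {p q : ℝ → V3 → ℝ}

theorem IsClassicalSolution.u_comp (hu : IsClassicalSolution nu f T u p) {t : ℝ} (ht : t ∈ Icc 0 T)
    (i : Fin 3) : ContDiff ℝ 2 fun y => u t y i :=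
  contDiff_pi.1 (hu.u_space t ht) i

theorem IsClassicalSolution.pdc_u (hu : IsClassicalSolution nu f T u p) {t : ℝ} (ht : t ∈ Icc 0 T)
    (i j : Fin 3) : pdc j (fun y => u t y i) = pd j (fun y => u t y i) :=
  funext fun x => pdc_eq_pd ((hu.u_comp ht i).differentiable (by norm_num) x) j

theorem IsClassicalSolution.pdc2_u (hu : IsClassicalSolution nu f T u p) {t : ℝ} (ht : t ∈ Icc 0 T)
    (i j k : Fin 3) : pdc k (pdc j (fun y => u t y i)) = pd k (pd j (fun y => u t y i)) := by
  rw [hu.pdc_u ht i j]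
  exact funext fun x =>
    pdc_eq_pd ((contDiff_pd (hu.u_comp ht i) j).differentiable (by norm_num) x) k

theorem IsClassicalSolution.pdc_p (hu : IsClassicalSolution nu f T u p) {t : ℝ} (ht : t ∈ Icc 0 T)
    (j : Fin 3) : pdc j (p t) = pd j (p t) :=
  funext fun x => pdc_eq_pd ((hu.p_space t ht).differentiable (by norm_num) x) j

theorem IsClassicalSolution.exists_bound_du (hv : IsClassicalSolution nu f T v q) :
    ∃ M, 0 ≤ M ∧ ∀ t ∈ Icc 0 T, ∀ x ∈ cube, ∀ i j, |pdc j (fun y => v t y i) x| ≤ M := by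
  have hb : ∀ ij : Fin 3 × Fin 3, ∃ M, ∀ z ∈ Icc 0 T ×ˢ cube,
      ‖pd ij.2 (fun y => v z.1 y ij.1) z.2‖ ≤ M := fun ij =>
    (isCompact_Icc.prod isCompact_cube).exists_bound_of_continuousOn
      ((hv.du_cont ij.1 ij.2).mono (prod_mono subset_rfl (subset_univ _)))
  choose M hM using hb
  refine ⟨∑ ij, |M ij|, Finset.sum_nonneg fun _ _ => abs_nonneg _, fun t ht x hx i j => ?_⟩
  rw [hv.pdc_u ht]
  have h1 := hM (i, j) (t, x) ⟨ht, hx⟩
  rw [Real.norm_eq_abs] at h1
  exact h1.trans ((le_abs_self _).trans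
    (Finset.single_le_sum (f := fun ij => |M ij|) (fun _ _ => abs_nonneg _) (Finset.mem_univ _)))

/-- The spatial integral of `|u - v|^2`. -/
noncomputable def energy (u v : ℝ → V3 → Fin 3 → ℝ) (t : ℝ) : ℝ :=
  cubeInt fun x => ∑ i, (u t x i - v t x i) ^ 2

theorem cont_slice {g : ℝ → V3 → ℝ} {t : ℝ}
    (hg : ContinuousOn (fun z : ℝ × V3 => g z.1 z.2) (Icc 0 T ×ˢ univ)) (ht : t ∈ Icc 0 T) :
    Continuous (g t) :=
  hg.comp_continuous (f := fun x : V3 => (t, x)) (by fun_prop) fun _ => ⟨ht, mem_univ _⟩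

/-- The pointwise energy inequality, in terms of the values of the functions and derivatives. -/
theorem energy_pointwise {nu M : ℝ} (hnu : 0 ≤ nu) (U V P Q wt : Fin 3 → ℝ)
    (DU DV D2U D2V : Fin 3 → Fin 3 → ℝ) (r : ℝ)
    (hwt : ∀ i, wt i = (-∑ j, U j * DU i j - P i + nu * ∑ j, D2U i j)
      - (-∑ j, V j * DV i j - Q i + nu * ∑ j, D2V i j))
    (du0 : ∑ i, DU i i = 0) (dv0 : ∑ i, DV i i = 0) (hb : ∀ i j, |DV i j| ≤ M) :
    (∑ i, 2 * (U i - V i) * wt i) ≤
      (∑ i, (-(DU i i * ∑ j, (U j - V j) ^ 2 + U i * ∑ j, 2 * (U j - V j) * (DU j i - DV j i))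
        - (2 * (DU i i - DV i i) * r + 2 * (U i - V i) * (P i - Q i))
        + 2 * nu * ∑ j, ((DU j i - DV j i) * (DU j i - DV j i) + (U j - V j) * (D2U j i - D2V j i))))
      + 18 * M * ∑ i, (U i - V i) ^ 2 := by
  have hMnn : 0 ≤ M := (abs_nonneg _).trans (hb 0 0)
  have hsq : ∀ i j, |(U i - V i) * (U j - V j) * DV j i| ≤
      M * (((U i - V i) ^ 2 + (U j - V j) ^ 2) / 2) := by
    intro i j
    rw [abs_mul, mul_comm M]
    refine mul_le_mul ?_ (hb j i) (abs_nonneg _) (by positivity)
    rw [abs_le]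
    constructor <;> nlinarith [sq_nonneg ((U i - V i) - (U j - V j)), sq_nonneg ((U i - V i) + (U j - V j))]
  have hc : |∑ i, ∑ j, (U i - V i) * (U j - V j) * DV j i| ≤ 3 * M * ∑ i, (U i - V i) ^ 2 := by
    refine (Finset.abs_sum_le_sum_abs _ _).trans ?_
    refine (Finset.sum_le_sum fun i _ => (Finset.abs_sum_le_sum_abs _ _).trans
      (Finset.sum_le_sum fun j _ => hsq i j)).trans (le_of_eq ?_)
    simp only [Fin.sum_univ_three]
    ring
  have hdiss : 0 ≤ nu * ∑ i, ∑ j, (DU j i - DV j i) * (DU j i - DV j i) :=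
    mul_nonneg hnu (Finset.sum_nonneg fun i _ => Finset.sum_nonneg fun j _ => mul_self_nonneg _)
  have hident : (∑ i, 2 * (U i - V i) * wt i) =
      (∑ i, (-(DU i i * ∑ j, (U j - V j) ^ 2 + U i * ∑ j, 2 * (U j - V j) * (DU j i - DV j i))
        - (2 * (DU i i - DV i i) * r + 2 * (U i - V i) * (P i - Q i))
        + 2 * nu * ∑ j, ((DU j i - DV j i) * (DU j i - DV j i) + (U j - V j) * (D2U j i - D2V j i))))
        - 2 * (∑ i, ∑ j, (U i - V i) * (U j - V j) * DV j i)
        - 2 * (nu * ∑ i, ∑ j, (DU j i - DV j i) * (DU j i - DV j i))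
        + (∑ i, DU i i) * ∑ j, (U j - V j) ^ 2
        + 2 * r * ((∑ i, DU i i) - ∑ i, DV i i) := by
    simp only [hwt, Fin.sum_univ_three]
    ring
  rw [hident, du0, dv0]
  have hnn : 0 ≤ M * ∑ i, (U i - V i) ^ 2 := mul_nonneg hMnn (by positivity)
  have := (abs_le.1 hc).1
  linarith

/-- The energy flux through the faces orthogonal to the `i`-th axis. -/
noncomputable def flux (nu : ℝ) (U W : Fin 3 → V3 → ℝ) (R : V3 → ℝ) (i : Fin 3) (y : V3) : ℝ :=
  -(U i y * ∑ j, W j y ^ 2) - 2 * W i y * R y + 2 * nu * ∑ j, W j y * pdc i (W j) y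

/-- The `i`-th derivative of the flux. -/
noncomputable def dflux (nu : ℝ) (U W : Fin 3 → V3 → ℝ) (R : V3 → ℝ) (i : Fin 3) (y : V3) : ℝ :=
  -(pdc i (U i) y * ∑ j, W j y ^ 2 + U i y * ∑ j, 2 * W j y * pdc i (W j) y)
    - (2 * pdc i (W i) y * R y + 2 * W i y * pdc i R y)
    + 2 * nu * ∑ j, (pdc i (W j) y * pdc i (W j) y + W j y * pdc i (pdc i (W j)) y)

theorem continuous_dflux {nu : ℝ} {U W : Fin 3 → V3 → ℝ} {R : V3 → ℝ} (i : Fin 3)
    (cU : Continuous (U i)) (cdU : Continuous (pdc i (U i))) (cW : ∀ j, Continuous (W j))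
    (cdW : ∀ j, Continuous (pdc i (W j))) (cd2W : ∀ j, Continuous (pdc i (pdc i (W j))))
    (cR : Continuous R) (cdR : Continuous (pdc i R)) : Continuous (dflux nu U W R i) :=
  (((cdU.mul (continuous_finsetSum _ fun j _ => (cW j).pow 2)).add
    (cU.mul (continuous_finsetSum _ fun j _ => (continuous_const.mul (cW j)).mul (cdW j)))).neg.sub
    (((continuous_const.mul (cdW i)).mul cR).add ((continuous_const.mul (cW i)).mul cdR))).add
    (continuous_const.mul (continuous_finsetSum _ fun j _ =>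
      ((cdW j).mul (cdW j)).add ((cW j).mul (cd2W j))))

theorem hasDerivAt_flux (nu : ℝ) {U W : Fin 3 → V3 → ℝ} {R : V3 → ℝ} {i : Fin 3} {x : V3}
    (dU : DifferentiableAt ℝ (fun s => U i (Function.update x i s)) (x i))
    (dW : ∀ j, DifferentiableAt ℝ (fun s => W j (Function.update x i s)) (x i))
    (ddW : ∀ j, DifferentiableAt ℝ (fun s => pdc i (W j) (Function.update x i s)) (x i))
    (dR : DifferentiableAt ℝ (fun s => R (Function.update x i s)) (x i)) :
    HasDerivAt (fun s => flux nu U W R i (Function.update x i s)) (dflux nu U W R i x) (x i) := by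
  have h := ((((hasDerivAt_pd dU).fun_mul
    (HasDerivAt.fun_sum fun j (_ : j ∈ Finset.univ) => (hasDerivAt_pd (dW j)).fun_pow 2)).fun_neg).fun_sub
    (((hasDerivAt_pd (dW i)).const_mul 2).fun_mul (hasDerivAt_pd dR))).fun_add
    ((HasDerivAt.fun_sum fun j (_ : j ∈ Finset.univ) =>
      (hasDerivAt_pd (dW j)).fun_mul (hasDerivAt_pd (ddW j))).const_mul (2 * nu))
  refine h.congr_deriv ?_
  simp [dflux]

theorem cubeInt_dflux (nu : ℝ) {U W : Fin 3 → V3 → ℝ} {R : V3 → ℝ} (i : Fin 3)
    (pU : Periodic3 (U i)) (pW : ∀ j, Periodic3 (W j)) (pR : Periodic3 R)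
    (cU : Continuous (U i)) (cdU : Continuous (pdc i (U i))) (cW : ∀ j, Continuous (W j))
    (cdW : ∀ j, Continuous (pdc i (W j))) (cd2W : ∀ j, Continuous (pdc i (pdc i (W j))))
    (cR : Continuous R) (cdR : Continuous (pdc i R))
    (dU : ∀ x : V3, DifferentiableAt ℝ (fun s => U i (Function.update x i s)) (x i))
    (dW : ∀ (x : V3) j, DifferentiableAt ℝ (fun s => W j (Function.update x i s)) (x i))
    (ddW : ∀ (x : V3) j, DifferentiableAt ℝ (fun s => pdc i (W j) (Function.update x i s)) (x i))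
    (dR : ∀ x : V3, DifferentiableAt ℝ (fun s => R (Function.update x i s)) (x i)) :
    cubeInt (dflux nu U W R i) = 0 := by
  have hd := fun x => hasDerivAt_flux nu (dU x) (dW x) (ddW x) (dR x)
  have hpd : pdc i (flux nu U W R i) = dflux nu U W R i := funext fun x => (hd x).deriv
  rw [← hpd]
  refine cubeInt_pd ?_ ?_ i (fun x => (hd x).differentiableAt) ?_
  · intro x k
    simp only [flux, pU x k, fun j => pW j x k, fun j => Periodic3.pdc (pW j) i x k, pR x k]
  · exact ((cU.mul (continuous_finsetSum _ fun j _ => (cW j).pow 2)).neg.sub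
      ((continuous_const.mul (cW i)).mul cR)).add
      (continuous_const.mul (continuous_finsetSum _ fun j _ => (cW j).mul (cdW j)))
  · rw [hpd]
    exact continuous_dflux i cU cdU cW cdW cd2W cR cdR

/-- The energy inequality at a fixed time. -/
theorem energy_slice (hnu : 0 ≤ nu) {M : ℝ} (U V : Fin 3 → V3 → ℝ) (P Q : V3 → ℝ) (wt : Fin 3 → V3 → ℝ)
    (cU : ∀ i, Continuous (U i)) (cV : ∀ i, Continuous (V i)) (cP : Continuous P) (cQ : Continuous Q)
    (cdU : ∀ i j, Continuous (pdc j (U i))) (cdV : ∀ i j, Continuous (pdc j (V i)))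
    (cd2U : ∀ i j, Continuous (pdc j (pdc j (U i)))) (cd2V : ∀ i j, Continuous (pdc j (pdc j (V i))))
    (cdP : ∀ j, Continuous (pdc j P)) (cdQ : ∀ j, Continuous (pdc j Q)) (cwt : ∀ i, Continuous (wt i))
    (dU : ∀ (x : V3) i j, DifferentiableAt ℝ (fun s => U i (Function.update x j s)) (x j))
    (dV : ∀ (x : V3) i j, DifferentiableAt ℝ (fun s => V i (Function.update x j s)) (x j))
    (ddU : ∀ (x : V3) i j, DifferentiableAt ℝ (fun s => pdc j (U i) (Function.update x j s)) (x j))
    (ddV : ∀ (x : V3) i j, DifferentiableAt ℝ (fun s => pdc j (V i) (Function.update x j s)) (x j))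
    (dP : ∀ (x : V3) j, DifferentiableAt ℝ (fun s => P (Function.update x j s)) (x j))
    (dQ : ∀ (x : V3) j, DifferentiableAt ℝ (fun s => Q (Function.update x j s)) (x j))
    (pU : ∀ i, Periodic3 (U i)) (pV : ∀ i, Periodic3 (V i)) (pP : Periodic3 P) (pQ : Periodic3 Q)
    (hwt : ∀ x i, wt i x = (-∑ j, U j x * pdc j (U i) x - pdc i P x + nu * ∑ j, pdc j (pdc j (U i)) x)
      - (-∑ j, V j x * pdc j (V i) x - pdc i Q x + nu * ∑ j, pdc j (pdc j (V i)) x))
    (du0 : ∀ x, ∑ i, pdc i (U i) x = 0) (dv0 : ∀ x, ∑ i, pdc i (V i) x = 0)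
    (hb : ∀ x ∈ cube, ∀ i j, |pdc j (V i) x| ≤ M) :
    cubeInt (fun x => ∑ i, 2 * (U i x - V i x) * wt i x) ≤
      18 * M * cubeInt (fun x => ∑ i, (U i x - V i x) ^ 2) := by
  have pW : ∀ i j, pdc j (fun y => U i y - V i y) = fun x => pdc j (U i) x - pdc j (V i) x :=
    fun i j => funext fun x => pd_sub (dU x i j) (dV x i j)
  have pdW : ∀ i j, pdc j (pdc j (fun y => U i y - V i y)) =
      fun x => pdc j (pdc j (U i)) x - pdc j (pdc j (V i)) x :=
    fun i j => funext fun x => by
      rw [pW]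
      exact pd_sub (ddU x i j) (ddV x i j)
  have pR : ∀ j, pdc j (fun y => P y - Q y) = fun x => pdc j P x - pdc j Q x :=
    fun j => funext fun x => pd_sub (dP x j) (dQ x j)
  have cW : ∀ i, Continuous fun y => U i y - V i y := fun i => (cU i).sub (cV i)
  have cdW : ∀ i j, Continuous (pdc j (fun y => U i y - V i y)) := fun i j => by
    rw [pW]; exact (cdU i j).sub (cdV i j)
  have cd2W : ∀ i j, Continuous (pdc j (pdc j (fun y => U i y - V i y))) := fun i j => by
    rw [pdW]; exact (cd2U i j).sub (cd2V i j)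
  have cdR : ∀ j, Continuous (pdc j (fun y => P y - Q y)) := fun j => by
    rw [pR]; exact (cdP j).sub (cdQ j)
  have ddW : ∀ (x : V3) i j, DifferentiableAt ℝ
      (fun s => pdc j (fun y => U i y - V i y) (Function.update x j s)) (x j) := fun x i j => by
    rw [pW]; exact (ddU x i j).sub (ddV x i j)
  have cdPhi := fun i => continuous_dflux (nu := nu) (U := U) (W := fun j y => U j y - V j y)
    (R := fun y => P y - Q y) i (cU i) (cdU i i) cW (fun j => cdW j i) (fun j => cd2W j i)
    (cP.sub cQ) (cdR i)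
  have hP0 := fun i => cubeInt_dflux nu (U := U) (W := fun j y => U j y - V j y)
    (R := fun y => P y - Q y) i (pU i) (fun j x k => congrArg₂ (· - ·) (pU j x k) (pV j x k))
    (fun x k => congrArg₂ (· - ·) (pP x k) (pQ x k)) (cU i) (cdU i i) cW (fun j => cdW j i)
    (fun j => cd2W j i) (cP.sub cQ) (cdR i) (fun x => dU x i i)
    (fun x j => (dU x j i).sub (dV x j i)) (fun x j => ddW x j i) (fun x => (dP x i).sub (dQ x i))
  have cE : Continuous fun x => ∑ i, (U i x - V i x) ^ 2 :=
    continuous_finsetSum _ fun i _ => (cW i).pow 2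
  have cS : Continuous fun x => ∑ i, dflux nu U (fun j y => U j y - V j y) (fun y => P y - Q y) i x :=
    continuous_finsetSum _ fun i _ => cdPhi i
  have hle := cubeInt_mono (F := fun x => ∑ i, 2 * (U i x - V i x) * wt i x)
    (G := fun x => (∑ i, dflux nu U (fun j y => U j y - V j y) (fun y => P y - Q y) i x)
      + 18 * M * ∑ i, (U i x - V i x) ^ 2)
    (continuous_finsetSum _ fun i _ => (continuous_const.mul (cW i)).mul (cwt i))
    (cS.add (continuous_const.mul cE)) fun x hx => by
      have h := energy_pointwise hnu (fun i => U i x) (fun i => V i x) (fun i => pdc i P x)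
        (fun i => pdc i Q x) (fun i => wt i x) (fun i j => pdc j (U i) x) (fun i j => pdc j (V i) x)
        (fun i j => pdc j (pdc j (U i)) x) (fun i j => pdc j (pdc j (V i)) x) (P x - Q x)
        (hwt x) (du0 x) (dv0 x) (hb x hx)
      simp only [dflux]
      simp only [pdW]
      simp only [pW, pR]
      exact h
  refine hle.trans (le_of_eq ?_)
  rw [cubeInt_add cS (G := fun x => 18 * M * ∑ i, (U i x - V i x) ^ 2) (continuous_const.mul cE),
    cubeInt_sum _ (fun i _ => cdPhi i),
    cubeInt_const_mul]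
  simp [hP0]

theorem energy_deriv (hnu : 0 ≤ nu) (hu : IsClassicalSolution nu f T u p)
    (hv : IsClassicalSolution nu f T v q) {M : ℝ}
    (hM : ∀ t ∈ Icc 0 T, ∀ x ∈ cube, ∀ i j, |pdc j (fun y => v t y i) x| ≤ M)
    {ut vt : ℝ → V3 → Fin 3 → ℝ}
    (hutc : ContinuousOn (fun z : ℝ × V3 => ut z.1 z.2) (Icc 0 T ×ˢ univ))
    (hvtc : ContinuousOn (fun z : ℝ × V3 => vt z.1 z.2) (Icc 0 T ×ˢ univ))
    (hut : ∀ t ∈ Icc 0 T, ∀ x, HasDerivWithinAt (fun s => u s x) (ut t x) (Icc 0 T) t ∧
      ∀ i, ut t x i + ∑ j, u t x j * pd j (fun y => u t y i) x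
        = -pd i (p t) x + nu * (∑ j, pd j (pd j fun y => u t y i) x) + f t x i)
    (hvt : ∀ t ∈ Icc 0 T, ∀ x, HasDerivWithinAt (fun s => v s x) (vt t x) (Icc 0 T) t ∧
      ∀ i, vt t x i + ∑ j, v t x j * pd j (fun y => v t y i) x
        = -pd i (q t) x + nu * (∑ j, pd j (pd j fun y => v t y i) x) + f t x i)
    {t : ℝ} (ht : t ∈ Ioo 0 T) :
    ∃ d, HasDerivAt (energy u v) d t ∧ d ≤ 18 * M * energy u v t := by
  have ht' : t ∈ Icc 0 T := Ioo_subset_Icc_self ht
  have hsub : Ioo 0 T ×ˢ (univ : Set V3) ⊆ Icc 0 T ×ˢ univ := prod_mono Ioo_subset_Icc_self subset_rfl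
  have hcw : ∀ i, ContinuousOn (fun z : ℝ × V3 => u z.1 z.2 i - v z.1 z.2 i) (Icc 0 T ×ˢ univ) :=
    fun i => (hu.u_cont i).sub (hv.u_cont i)
  set F : ℝ → V3 → ℝ := fun s x => ∑ i, (u s x i - v s x i) ^ 2 with hF
  set F' : ℝ → V3 → ℝ := fun s x => ∑ i, 2 * (u s x i - v s x i) * (ut s x i - vt s x i) with hF'
  have c1 : ContinuousOn (fun z : ℝ × V3 => F z.1 z.2) (Ioo 0 T ×ˢ univ) := by
    refine ContinuousOn.mono ?_ hsub
    exact continuousOn_finsetSum _ fun i _ => (hcw i).pow 2
  have c2 : ContinuousOn (fun z : ℝ × V3 => F' z.1 z.2) (Ioo 0 T ×ˢ univ) := by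
    refine ContinuousOn.mono ?_ hsub
    exact continuousOn_finsetSum _ fun i _ => (continuousOn_const.mul (hcw i)).mul
      ((continuousOn_pi.1 hutc i).sub (continuousOn_pi.1 hvtc i))
  have c3 : ∀ s ∈ Ioo 0 T, ∀ x, HasDerivAt (fun r => F r x) (F' s x) s := by
    intro s hs x
    have hnh : Icc 0 T ∈ 𝓝 s := Icc_mem_nhds hs.1 hs.2
    have hh : ∀ i, HasDerivAt (fun r => (u r x i - v r x i) ^ 2)
        (2 * (u s x i - v s x i) * (ut s x i - vt s x i)) s := by
      intro i
      have h1 := (hasDerivWithinAt_pi.1 (hut s (Ioo_subset_Icc_self hs) x).1 i).hasDerivAt hnh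
      have h2 := (hasDerivWithinAt_pi.1 (hvt s (Ioo_subset_Icc_self hs) x).1 i).hasDerivAt hnh
      exact ((h1.fun_sub h2).fun_pow 2).congr_deriv (by ring)
    exact HasDerivAt.fun_sum fun i _ => hh i
  have hD : HasDerivAt (energy u v) (cubeInt (F' t)) t :=
    hasDerivAt_cubeInt isOpen_Ioo c1 c2 c3 ht
  refine ⟨_, hD, ?_⟩
  refine energy_slice hnu (fun i y => u t y i) (fun i y => v t y i) (p t) (q t)
    (fun i x => ut t x i - vt t x i)
    (fun i => (hu.u_comp ht' i).continuous) (fun i => (hv.u_comp ht' i).continuous)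
    (hu.p_space t ht').continuous (hv.p_space t ht').continuous
    (fun i j => ?_) (fun i j => ?_) (fun i j => ?_) (fun i j => ?_) (fun j => ?_) (fun j => ?_)
    (fun i => ?_)
    (fun x i j => differentiableAt_slice ((hu.u_comp ht' i).differentiable (by norm_num)) x j)
    (fun x i j => differentiableAt_slice ((hv.u_comp ht' i).differentiable (by norm_num)) x j)
    (fun x i j => ?_) (fun x i j => ?_)
    (fun x j => differentiableAt_slice ((hu.p_space t ht').differentiable (by norm_num)) x j)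
    (fun x j => differentiableAt_slice ((hv.p_space t ht').differentiable (by norm_num)) x j)
    (fun i x k => congrFun (periodic3_of_torus (hu.u_torus t ht') x k) i)
    (fun i x k => congrFun (periodic3_of_torus (hv.u_torus t ht') x k) i)
    (periodic3_of_torus (hu.p_torus t ht')) (periodic3_of_torus (hv.p_torus t ht'))
    (fun x i => ?_) (fun x => ?_) (fun x => ?_) (hM t ht')
  · rw [hu.pdc_u ht']
    exact cont_slice (g := fun s y => pd j (fun y => u s y i) y) (hu.du_cont i j) ht'
  · rw [hv.pdc_u ht']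
    exact cont_slice (g := fun s y => pd j (fun y => v s y i) y) (hv.du_cont i j) ht'
  · rw [hu.pdc2_u ht']
    exact cont_slice (g := fun s y => pd j (pd j (fun y => u s y i)) y) (hu.ddu_cont i j j) ht'
  · rw [hv.pdc2_u ht']
    exact cont_slice (g := fun s y => pd j (pd j (fun y => v s y i)) y) (hv.ddu_cont i j j) ht'
  · rw [hu.pdc_p ht']
    exact cont_slice (g := fun s y => pd j (p s) y) (hu.dp_cont j) ht'
  · rw [hv.pdc_p ht']
    exact cont_slice (g := fun s y => pd j (q s) y) (hv.dp_cont j) ht'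
  · exact (cont_slice (g := fun s y => ut s y i) (continuousOn_pi.1 hutc i) ht').sub
      (cont_slice (g := fun s y => vt s y i) (continuousOn_pi.1 hvtc i) ht')
  · rw [hu.pdc_u ht']
    exact differentiableAt_slice ((contDiff_pd (hu.u_comp ht' i) j).differentiable (by norm_num)) x j
  · rw [hv.pdc_u ht']
    exact differentiableAt_slice ((contDiff_pd (hv.u_comp ht' i) j).differentiable (by norm_num)) x j
  · simp only [hu.pdc2_u ht', hv.pdc2_u ht']
    simp only [hu.pdc_u ht', hv.pdc_u ht', hu.pdc_p ht', hv.pdc_p ht']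
    linear_combination (hut t ht' x).2 i - (hvt t ht' x).2 i
  · simp only [hu.pdc_u ht']
    exact hu.div_free t ht' x
  · simp only [hv.pdc_u ht']
    exact hv.div_free t ht' x

/-- Two classical solutions on `[0, T]` with the same force coincide. -/
theorem IsClassicalSolution.unique (hnu : 0 ≤ nu) (hT : 0 < T) (hu : IsClassicalSolution nu f T u p)
    (hv : IsClassicalSolution nu f T v q) :
    ∀ t ∈ Icc 0 T, ∀ x, u t x = v t x ∧ p t x = q t x := by
  obtain ⟨ut, hutc, hut⟩ := hu.momentum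
  obtain ⟨vt, hvtc, hvt⟩ := hv.momentum
  obtain ⟨M, -, hM⟩ := hv.exists_bound_du
  have hcE : ContinuousOn (energy u v) (Icc 0 T) :=
    continuousOn_cubeInt (continuousOn_finsetSum _ fun i _ => ((hu.u_cont i).sub (hv.u_cont i)).pow 2)
  have hanti : AntitoneOn (fun t => energy u v t * Real.exp (-(18 * M) * t)) (Icc 0 T) := by
    refine antitoneOn_of_deriv_nonpos (convex_Icc 0 T) (hcE.mul (by fun_prop)) ?_ ?_
    · rw [interior_Icc]
      intro t ht
      obtain ⟨d, hd, -⟩ := energy_deriv hnu hu hv hM hutc hvtc hut hvt ht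
      exact (hd.differentiableAt.mul (by fun_prop)).differentiableWithinAt
    · rw [interior_Icc]
      intro t ht
      obtain ⟨d, hd, hle⟩ := energy_deriv hnu hu hv hM hutc hvtc hut hvt ht
      have he := ((hasDerivAt_id t).const_mul (-(18 * M))).exp
      have h2 : HasDerivAt (fun t => energy u v t * Real.exp (-(18 * M) * t)) _ t := hd.fun_mul he
      rw [h2.deriv]
      have : 0 < Real.exp (-(18 * M) * t) := Real.exp_pos _
      simp only [id, mul_one]
      nlinarith
  have hw : ∀ t ∈ Icc 0 T, ∀ x, u t x = v t x := by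
    intro t ht
    have cE : Continuous fun x => ∑ i, (u t x i - v t x i) ^ 2 :=
      continuous_finsetSum _ fun i _ =>
        ((hu.u_comp ht i).continuous.sub (hv.u_comp ht i).continuous).pow 2
    have hnn : 0 ≤ energy u v t := cubeInt_nonneg cE fun x _ => by positivity
    have h0 : energy u v 0 = 0 := by
      simp [energy, hu.initial, hv.initial, cubeInt_const]
    have h1 := hanti (left_mem_Icc.2 hT.le) ht ht.1
    simp only [h0, zero_mul] at h1
    have h2 : energy u v t = 0 :=
      le_antisymm (by nlinarith [Real.exp_pos (-(18 * M) * t)]) hnn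
    have h3 := eq_zero_of_cubeInt_eq_zero cE (fun x _ => by positivity) h2
    intro x
    funext i
    have hper : Periodic3 fun x => u t x i - v t x i := fun y k => by
      simp only [congrFun (periodic3_of_torus (hu.u_torus t ht) y k) i,
        congrFun (periodic3_of_torus (hv.u_torus t ht) y k) i]
    obtain ⟨y, hy, e⟩ := hper.eq_of_cube x
    have h4 := (Finset.sum_eq_zero_iff_of_nonneg fun j _ => sq_nonneg (u t y j - v t y j)).1
      (h3 y hy) i (Finset.mem_univ _)
    have h5 : u t y i - v t y i = 0 := by simpa using h4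
    linarith
  intro t ht x
  refine ⟨hw t ht x, ?_⟩
  have hut' : ∀ y, ut t y = vt t y := fun y =>
    ((uniqueDiffOn_Icc hT) t ht).eq_deriv _ (hut t ht y).1
      ((hvt t ht y).1.congr (fun s hs => hw s hs y) (hw t ht y))
  have hd : Differentiable ℝ (p t) := (hu.p_space t ht).differentiable (by norm_num)
  have hd' : Differentiable ℝ (q t) := (hv.p_space t ht).differentiable (by norm_num)
  have hpd : ∀ y i, pdc i (fun z => p t z - q t z) y = 0 := by
    intro y i
    rw [pd_sub (differentiableAt_slice hd y i) (differentiableAt_slice hd' y i),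
      hu.pdc_p ht, hv.pdc_p ht]
    have e1 := (hut t ht y).2 i
    have e2 := (hvt t ht y).2 i
    have hfun : ∀ j, (fun z => u t z j) = fun z => v t z j := fun j => funext fun z => by rw [hw t ht z]
    simp only [hut', hfun, hw t ht y] at e1
    linarith
  have hc := eq_of_pd_eq_zero
    (fun y i => (differentiableAt_slice hd y i).sub (differentiableAt_slice hd' y i)) hpd
  have e : ∫ y in Icc (0 : V3) 1, p t y = ∫ y in Icc (0 : V3) 1, ((p t x - q t x) + q t y) :=
    integral_congr_ae (Eventually.of_forall fun y => by linarith [hc y x])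
  have hvol : volume.real (Icc (0 : V3) 1) = 1 := by
    simp [measureReal_def, Real.volume_Icc_pi]
  have i1 : Integrable (fun _ : V3 => p t x - q t x) (volume.restrict (Icc (0 : V3) 1)) :=
    continuous_const.integrableOn_Icc
  have i2 : Integrable (q t) (volume.restrict (Icc (0 : V3) 1)) :=
    (hv.p_space t ht).continuous.integrableOn_Icc
  rw [integral_add i1 i2, setIntegral_const, hvol] at e
  have := hu.p_mean t ht
  have := hv.p_mean t ht
  simp only [one_smul] at e
  linarith

end

end Vale.Agent.P113
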