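import Vale.Agent.P113.Calculus
import Vale.Agent.P113.Unique

/-! P113: the field of a program solves the equations with the force of the program. -/

namespace Vale.Agent.P113

open Set Filter Topology
open scoped ContDiff

/-- The loading bump `ρ^(j) (4 t - 1)`. -/
def loadBump (j : ℕ) : Bump := (0, (false, 3, 0), (1, 0, 0), Sum.inl j)

/-- The loading field in one component. -/
def loadVel (r : RatData) : List Term :=
  [(Coeff.mk' (RatData.mul (4, 0, 0) r) 1 [], [(false, loadBump 0)], [], [], [])]

/-- The components of the velocity. -/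
def velTerms (P : Program) (s : Start) : Fin 3 → List Term :=
  ![P.field.1 ++ loadVel s.1, P.field.2.1 ++ loadVel s.2, P.field.2.2]

/-- The velocity. -/
noncomputable def velocity (P : Program) (s : Start) (t : ℝ) (x : Fin 3 → ℝ) : Fin 3 → ℝ :=
  fun i => sumEval (velTerms P s i) 1 t x

/-! ## Structure of the periodic part -/

/-- A term of the periodic part of the field. -/
def IsFieldTerm (a : Term) : Prop :=
  a.1.2.1 = 0 ∧ ∃ c ∈ [9, 11, 13, 15], a.2.1 = [(true, stageBump c)]

theorem isFieldTerm_potX {U c : ℕ} (hc : c ∈ [9, 11, 13, 15]) {l : List Piece} :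
    ∀ a ∈ potX U c l, IsFieldTerm a := by
  intro a ha
  obtain ⟨p, -, ha⟩ := List.mem_flatMap.1 ha
  obtain ⟨e, -, rfl⟩ := List.mem_map.1 ha
  exact ⟨rfl, c, hc, rfl⟩

theorem isFieldTerm_potY {U c : ℕ} (hc : c ∈ [9, 11, 13, 15]) {l : List Piece} :
    ∀ a ∈ potY U c l, IsFieldTerm a := by
  intro a ha
  obtain ⟨p, -, ha⟩ := List.mem_flatMap.1 ha
  obtain ⟨e, -, rfl⟩ := List.mem_map.1 ha
  exact ⟨rfl, c, hc, rfl⟩

theorem isFieldTerm_dSpace {a : Term} (h : IsFieldTerm a) (i : Fin 3) :
    ∀ b ∈ Term.dSpace i a, IsFieldTerm b := by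
  intro b hb
  fin_cases i <;>
    · obtain ⟨e, -, rfl⟩ := List.mem_map.1 hb
      exact h

theorem isFieldTerm_flatMap {L : List Term} (h : ∀ a ∈ L, IsFieldTerm a) (i : Fin 3) :
    ∀ b ∈ L.flatMap (Term.dSpace i), IsFieldTerm b := by
  intro b hb
  obtain ⟨a, ha, hb⟩ := List.mem_flatMap.1 hb
  exact isFieldTerm_dSpace (h a ha) i b hb

theorem isFieldTerm_potXs (P : Program) : ∀ a ∈ P.potXs, IsFieldTerm a := by
  intro a ha
  rcases List.mem_append.1 ha with h | h
  · exact isFieldTerm_potX (by simp) a h
  · exact isFieldTerm_potX (by simp) a h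

theorem isFieldTerm_potYs (P : Program) : ∀ a ∈ P.potYs, IsFieldTerm a := by
  intro a ha
  rcases List.mem_append.1 ha with h | h
  · exact isFieldTerm_potY (by simp) a h
  · exact isFieldTerm_potY (by simp) a h

theorem isFieldTerm_field (P : Program) (i : Fin 3) :
    ∀ a ∈ P.field.component i, IsFieldTerm a := by
  intro a ha
  fin_cases i
  · exact isFieldTerm_flatMap (isFieldTerm_potXs P) 2 a ha
  · exact isFieldTerm_flatMap (isFieldTerm_potYs P) 2 a ha
  · obtain ⟨b, hb, rfl⟩ := List.mem_map.1 ha
    rcases List.mem_append.1 hb with h | h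
    · exact isFieldTerm_flatMap (isFieldTerm_potXs P) 0 b h
    · exact isFieldTerm_flatMap (isFieldTerm_potYs P) 1 b h

theorem stageBump_eval (c : ℕ) (s : ℝ) : (stageBump c).eval s = rho (16 * s - c) := by
  norm_num [Bump.eval, stageBump, NzData.val, PosData.val, RatData.val]

theorem loadBump_eval (j : ℕ) (s : ℝ) : (loadBump j).eval s = iteratedDeriv j rho (4 * s - 1) := by
  norm_num [Bump.eval, loadBump, NzData.val, PosData.val, RatData.val]

theorem periodize_stageBump_eq_zero {c : ℕ} {t : ℝ}
    (h : ∀ m : ℤ, 1 ≤ |16 * (t + m) - c|) : periodize (stageBump c).eval t = 0 := by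
  have : ∀ m : ℤ, (stageBump c).eval (t + m) = 0 := fun m => by
    rw [stageBump_eval, rho_eq_zero (h m)]
  simp [periodize, this]

/-- Outside the windows `(n + 1/2, n + 1)` the periodic part vanishes. -/
theorem sumEval_fieldTerm_eq_zero {L : List Term} (hL : ∀ a ∈ L, IsFieldTerm a) {n : ℤ} {t : ℝ}
    (h₁ : (n : ℝ) ≤ t) (h₂ : t ≤ n + 1 / 2) (ν : ℝ) (x : V3) : sumEval L ν t x = 0 := by
  refine List.sum_eq_zero fun y hy => ?_
  obtain ⟨a, ha, rfl⟩ := List.mem_map.1 hy
  obtain ⟨-, c, hc, hθ⟩ := hL a ha
  have hz : periodize (stageBump c).eval t = 0 := by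
    refine periodize_stageBump_eq_zero fun m => ?_
    have hc' : (9 : ℝ) ≤ c ∧ (c : ℝ) ≤ 15 := by
      simp only [List.mem_cons, List.not_mem_nil, or_false] at hc
      rcases hc with rfl | rfl | rfl | rfl <;> norm_num
    rcases le_or_gt (n + m) (0 : ℤ) with hm | hm
    · have : (n : ℝ) + m ≤ 0 := by exact_mod_cast hm
      rw [abs_of_nonpos (by linarith)]
      linarith
    · have : (1 : ℝ) ≤ (n : ℝ) + m := by exact_mod_cast hm
      rw [abs_of_nonneg (by linarith)]
      linarith
  simp [Term.eval_eq, timeProd, hθ, timeFactor, hz]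

theorem sumEval_fieldTerm_nu {L : List Term} (hL : ∀ a ∈ L, IsFieldTerm a) (ν ν' t : ℝ) (x : V3) :
    sumEval L ν t x = sumEval L ν' t x := by
  unfold sumEval
  congr 1
  refine List.map_congr_left fun a ha => ?_
  simp [Term.eval_eq, Coeff.eval, (hL a ha).1]

theorem sumEval_loadVel (r : RatData) (ν t : ℝ) (x : V3) :
    sumEval (loadVel r) ν t x = 4 * r.val / kappa * rho (4 * t - 1) := by
  have h4 : RatData.val (4, 0, 0) = 4 := by simp [RatData.val]
  simp [sumEval, loadVel, Term.eval_eq, Coeff.eval_mk', RatData.val_mul, h4, timeProd, timeFactor,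
    spaceProd, loadBump_eval]

theorem loadVel_flatMap_dSpace (r : RatData) (i : Fin 3) :
    (loadVel r).flatMap (Term.dSpace i) = [] := by
  fin_cases i <;> simp [loadVel, Term.dSpace, Term.dX, Term.dY, Term.dZ, dProd_nil]

theorem sumEval_loadVel_dT (r : RatData) (ν t : ℝ) (x : V3) :
    sumEval ((loadVel r).flatMap Term.dT) ν t x = sumEval (loadForce r) ν t x := by
  have h1 := hasDerivAt_sumEval_time (loadVel r) ν t x
  have h2 : HasDerivAt (fun s => sumEval (loadVel r) ν s x) (sumEval (loadForce r) ν t x) t := by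
    simp only [sumEval_loadVel]
    have hd : HasDerivAt (fun s : ℝ => rho (4 * s - 1)) (iteratedDeriv 1 rho (4 * t - 1) * 4) t := by
      rw [iteratedDeriv_one]
      exact ((contDiff_rho (n := 1)).differentiable (by simp) _).hasDerivAt.comp t
        (((hasDerivAt_id t).const_mul (4 : ℝ)).sub_const 1 |>.congr_deriv (by simp))
    refine (hd.const_mul _).congr_deriv ?_
    have h16 : RatData.val (16, 0, 0) = 16 := by simp [RatData.val]
    have hl : ((0, (false, 3, 0), (1, 0, 0), Sum.inl 1) : Bump) = loadBump 1 := rfl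
    simp [sumEval, loadForce, Term.eval_eq, Coeff.eval_mk', RatData.val_mul, h16, timeProd,
      timeFactor, spaceProd, hl, loadBump_eval]
    ring
  exact h1.unique h2

theorem sumEval_neg_flatMap (L : List Term) (ν t : ℝ) (x : V3) :
    sumEval ((L.map Term.neg).flatMap Term.dZ) ν t x = -sumEval (L.flatMap Term.dZ) ν t x := by
  induction L with
  | nil => simp [sumEval]
  | cons a L ih =>
    simp only [List.map_cons, List.flatMap_cons, sumEval_append, ih, Term.sumEval_dZ]
    simp only [Term.neg, Coeff.eval_neg]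
    ring

theorem sumEval_flatMap_congr {D D' : Term → List Term} (L : List Term) (ν t : ℝ) (x : V3)
    (h : ∀ a, sumEval (D a) ν t x = sumEval (D' a) ν t x) :
    sumEval (L.flatMap D) ν t x = sumEval (L.flatMap D') ν t x := by
  simp [sumEval_flatMap, h]

theorem velocity_div (P : Program) (s : Start) (t : ℝ) (x : V3) :
    ∑ i, pd i (fun y => velocity P s t y i) x = 0 := by
  have h0 : (Term.dSpace 0) = Term.dX := rfl
  have h1 : (Term.dSpace 1) = Term.dY := rfl
  have h2 : (Term.dSpace 2) = Term.dZ := rfl
  have e0 := loadVel_flatMap_dSpace s.1 0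
  have e1 := loadVel_flatMap_dSpace s.2 1
  simp only [velocity, pd_sumEval, Fin.sum_univ_three]
  simp only [velTerms, Matrix.cons_val_zero, Matrix.cons_val_one, Matrix.cons_val]
  rw [List.flatMap_append, List.flatMap_append, e0, e1, List.append_nil, List.append_nil, h0, h1, h2]
  simp only [Program.field, sumEval_neg_flatMap, List.flatMap_append, sumEval_append]
  simp only [List.flatMap_assoc]
  rw [sumEval_flatMap_congr P.potXs 1 t x (D' := fun a => a.dX.flatMap Term.dZ)
      (fun a => sumEval_dX_dZ a 1 t x),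
    sumEval_flatMap_congr P.potYs 1 t x (D' := fun a => a.dY.flatMap Term.dZ)
      (fun a => sumEval_dY_dZ a 1 t x)]
  ring

theorem contDiff_velocity (P : Program) (s : Start) :
    ContDiff ℝ ∞ fun z : ℝ × V3 => velocity P s z.1 z.2 :=
  contDiff_pi.2 fun i => contDiff_sumEval (velTerms P s i) 1

theorem velocity_torus (P : Program) (s : Start) (t : ℝ) : IsTorusFun (velocity P s t) :=
  fun x k => funext fun i => sumEval_torus (velTerms P s i) 1 t x k

theorem velocity_zero (P : Program) (s : Start) (x : V3) : velocity P s 0 x = 0 := by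
  funext i
  have hf := fun j => sumEval_fieldTerm_eq_zero (isFieldTerm_field P j) (n := 0) (t := 0)
    (by simp) (by norm_num) 1 x
  have hr : rho ((4 : ℝ) * 0 - 1) = 0 := rho_eq_zero (by norm_num)
  fin_cases i
  · show sumEval (P.field.component 0 ++ loadVel s.1) 1 0 x = 0
    rw [sumEval_append, hf 0, sumEval_loadVel, hr]; ring
  · show sumEval (P.field.component 1 ++ loadVel s.2) 1 0 x = 0
    rw [sumEval_append, hf 1, sumEval_loadVel, hr]; ring
  · exact hf 2

/-- The periodic part and the loading part never live at the same time. -/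
theorem loadVel_mul_field (P : Program) (r : RatData) (i : Fin 3) {L : List Term}
    (hL : L = (P.field.component i).flatMap (Term.dSpace 0) ∨
      L = (P.field.component i).flatMap (Term.dSpace 1)) (ν t : ℝ) (x : V3) :
    sumEval (loadVel r) ν t x * sumEval L ν t x = 0 := by
  rcases le_or_gt 1 |4 * t - 1| with h | h
  · rw [sumEval_loadVel, rho_eq_zero h]; ring
  · rw [abs_lt] at h
    have h0 : sumEval L ν t x = 0 := by
      refine sumEval_fieldTerm_eq_zero ?_ (n := 0) (by push_cast; linarith) (by push_cast; linarith) ν x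
      rcases hL with rfl | rfl <;> exact isFieldTerm_flatMap (isFieldTerm_field P i) _
    rw [h0, mul_zero]

theorem sumEval_forceOf (u : Forces) (w : List Term) (ν t : ℝ) (x : V3) :
    sumEval (forceOf u w) ν t x = sumEval (w.flatMap Term.dT) ν t x +
      (sumEval u.1 ν t x * sumEval (w.flatMap Term.dX) ν t x +
        sumEval u.2.1 ν t x * sumEval (w.flatMap Term.dY) ν t x +
        sumEval u.2.2 ν t x * sumEval (w.flatMap Term.dZ) ν t x) -
      ν * (sumEval ((w.flatMap Term.dX).flatMap Term.dX) ν t x +
        sumEval ((w.flatMap Term.dY).flatMap Term.dY) ν t x +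
        sumEval ((w.flatMap Term.dZ).flatMap Term.dZ) ν t x) := by
  simp only [forceOf, sumEval_append, sumEval_mulSum, sumEval_negNu]
  ring

theorem forces_eval (Q : Program × Start) (ν t : ℝ) (x : V3) (i : Fin 3) :
    (forces Q).eval ν t x i = sumEval ((forces Q).component i) ν t x := rfl

theorem coeff_velTerms_nu (P : Program) (s : Start) (i : Fin 3) :
    ∀ a ∈ velTerms P s i, a.1.2.1 = 0 := by
  intro a ha
  fin_cases i
  · rcases List.mem_append.1 ha with h | h
    · exact (isFieldTerm_field P 0 a h).1
    · rw [List.mem_singleton.1 h]; rfl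
  · rcases List.mem_append.1 ha with h | h
    · exact (isFieldTerm_field P 1 a h).1
    · rw [List.mem_singleton.1 h]; rfl
  · exact (isFieldTerm_field P 2 a ha).1

theorem sumEval_velTerms_nu (P : Program) (s : Start) (i : Fin 3) (ν t : ℝ) (x : V3) :
    sumEval (velTerms P s i) ν t x = velocity P s t x i := by
  unfold velocity sumEval
  congr 1
  refine List.map_congr_left fun a ha => ?_
  simp [Term.eval_eq, Coeff.eval, coeff_velTerms_nu P s i a ha]

theorem pd_velocity (P : Program) (s : Start) (ν t : ℝ) (i j : Fin 3) :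
    pd j (fun y => velocity P s t y i) =
      fun y => sumEval ((velTerms P s i).flatMap (Term.dSpace j)) ν t y := by
  rw [← pd_sumEval]
  congr 1
  funext y
  rw [sumEval_velTerms_nu]

theorem pd2_velocity (P : Program) (s : Start) (ν t : ℝ) (i j k : Fin 3) :
    pd k (pd j (fun y => velocity P s t y i)) =
      fun y => sumEval (((velTerms P s i).flatMap (Term.dSpace j)).flatMap (Term.dSpace k)) ν t y := by
  rw [pd_velocity P s ν, pd_sumEval]

theorem velocity_momentum (P : Program) (s : Start) (ν t : ℝ) (x : V3) (i : Fin 3) :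
    sumEval ((velTerms P s i).flatMap Term.dT) ν t x
      + ∑ j, velocity P s t x j * pd j (fun y => velocity P s t y i) x
      = ν * (∑ j, pd j (pd j fun y => velocity P s t y i) x) + (forces (P, s)).eval ν t x i := by
  simp only [Fin.sum_univ_three]
  rw [pd2_velocity P s ν t i 0 0, pd2_velocity P s ν t i 1 1, pd2_velocity P s ν t i 2 2,
    pd_velocity P s ν t i 0, pd_velocity P s ν t i 1, pd_velocity P s ν t i 2, forces_eval]
  simp only [← sumEval_velTerms_nu P s _ ν]
  have h0 : (Term.dSpace 0) = Term.dX := rfl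
  have h1 : (Term.dSpace 1) = Term.dY := rfl
  have h2 : (Term.dSpace 2) = Term.dZ := rfl
  have k00 := fun r => loadVel_mul_field P r 0 (Or.inl rfl) ν t x
  have k01 := fun r => loadVel_mul_field P r 0 (Or.inr rfl) ν t x
  have k10 := fun r => loadVel_mul_field P r 1 (Or.inl rfl) ν t x
  have k11 := fun r => loadVel_mul_field P r 1 (Or.inr rfl) ν t x
  have k20 := fun r => loadVel_mul_field P r 2 (Or.inl rfl) ν t x
  have k21 := fun r => loadVel_mul_field P r 2 (Or.inr rfl) ν t x
  have e : ∀ r j, (loadVel r).flatMap (Term.dSpace j) = [] := loadVel_flatMap_dSpace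
  have eX : ∀ r, (loadVel r).flatMap Term.dX = [] := fun r => e r 0
  have eY : ∀ r, (loadVel r).flatMap Term.dY = [] := fun r => e r 1
  have eZ : ∀ r, (loadVel r).flatMap Term.dZ = [] := fun r => e r 2
  rw [h0] at k00 k10 k20
  rw [h1] at k01 k11 k21
  simp only [h0, h1, h2]
  fin_cases i
  · simp only [velTerms, forces, Forces.component, Fin.zero_eta, Matrix.cons_val_zero,
      Matrix.cons_val_one, Matrix.cons_val, List.flatMap_append, eX, eY, eZ, List.append_nil,
      sumEval_append, sumEval_forceOf, sumEval_loadVel_dT] at *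
    linear_combination k00 s.1 + k01 s.2
  · simp only [velTerms, forces, Forces.component, Fin.mk_one, Matrix.cons_val_zero,
      Matrix.cons_val_one, Matrix.cons_val, List.flatMap_append, eX, eY, eZ, List.append_nil,
      sumEval_append, sumEval_forceOf, sumEval_loadVel_dT] at *
    linear_combination k10 s.1 + k11 s.2
  · simp only [velTerms, forces, Forces.component, Fin.reduceFinMk, Matrix.cons_val_zero,
      Matrix.cons_val_one, Matrix.cons_val, List.flatMap_append, eX, eY, eZ, List.append_nil,
      sumEval_append, sumEval_forceOf] at *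
    linear_combination k20 s.1 + k21 s.2

theorem velocity_isClassical (P : Program) (s : Start) (ν T : ℝ) :
    IsClassicalSolution ν ((forces (P, s)).eval ν) T (velocity P s) (fun _ _ => 0) where
  u_torus t _ := velocity_torus P s t
  p_torus t _ := fun _ _ => rfl
  u_space t _ := contDiff_pi.2 fun i => (contDiff_sumEval_space _ 1 t).of_le (by norm_cast)
  p_space t _ := contDiff_const
  u_cont i := (contDiff_sumEval _ 1).continuous.continuousOn
  du_cont i j := by
    refine ((contDiff_sumEval ((velTerms P s i).flatMap (Term.dSpace j)) 1).continuous.continuousOn).congr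
      fun z _ => ?_
    rw [pd_velocity P s 1]
  ddu_cont i j k := by
    refine ((contDiff_sumEval (((velTerms P s i).flatMap (Term.dSpace j)).flatMap (Term.dSpace k)) 1)
      ).continuous.continuousOn.congr fun z _ => ?_
    rw [pd2_velocity P s 1]
  p_cont := continuousOn_const
  dp_cont i := by
    refine (continuousOn_const (c := (0 : ℝ))).congr fun z _ => ?_
    simp [pd]
  momentum := by
    refine ⟨fun t x i => sumEval ((velTerms P s i).flatMap Term.dT) ν t x,
      continuousOn_pi.2 fun i => (contDiff_sumEval _ ν).continuous.continuousOn,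
      fun t _ x => ⟨?_, fun i => ?_⟩⟩
    · refine HasDerivAt.hasDerivWithinAt (hasDerivAt_pi.2 fun i => ?_)
      have := hasDerivAt_sumEval_time (velTerms P s i) ν t x
      simpa only [sumEval_velTerms_nu] using this
    · have := velocity_momentum P s ν t x i
      have hp : pd i (fun _ : V3 => (0 : ℝ)) x = 0 := by simp [pd]
      rw [hp]
      linear_combination this
  div_free t _ x := velocity_div P s t x
  p_mean t _ := by simp
  initial x := velocity_zero P s x

/-- The force of a program has a global smooth solution, unique among classical solutions. -/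
theorem velocity_solution (P : Program) (s : Start) {ν : ℝ} (hν : 0 < ν) :
    ∃ p : ℝ → (Fin 3 → ℝ) → ℝ,
      ContDiffOn ℝ ∞ (fun z : ℝ × (Fin 3 → ℝ) => velocity P s z.1 z.2) (Ici 0 ×ˢ univ) ∧
      ContDiffOn ℝ ∞ (fun z : ℝ × (Fin 3 → ℝ) => p z.1 z.2) (Ici 0 ×ˢ univ) ∧
      ∀ T : ℝ, 0 < T →
        IsClassicalSolution ν ((forces (P, s)).eval ν) T (velocity P s) p ∧
        ∀ u' p', IsClassicalSolution ν ((forces (P, s)).eval ν) T u' p' →
          ∀ t ∈ Icc 0 T, ∀ x, u' t x = velocity P s t x ∧ p' t x = p t x :=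
  ⟨fun _ _ => 0, (contDiff_velocity P s).contDiffOn, contDiffOn_const, fun T hT =>
    ⟨velocity_isClassical P s ν T, fun _ _ h' =>
      h'.unique hν.le hT (velocity_isClassical P s ν T)⟩⟩

/-! ## Periodic and transient terms -/

theorem dProd_timeDlist_all {l : List (Bool × Bump)} (h : l.all (fun g => g.1) = true) :
    ∀ e ∈ dProd timeDlist l, e.2.all (fun g => g.1) = true := by
  induction l with
  | nil => simp [dProd_nil]
  | cons g l ih =>
    simp only [List.all_cons, Bool.and_eq_true] at h
    intro e he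
    rw [dProd_cons, List.mem_append] at he
    rcases he with he | he
    · obtain ⟨r, hr, rfl⟩ := List.mem_map.1 he
      obtain ⟨q, -, rfl⟩ := List.mem_map.1 hr
      simp [h.1, h.2]
    · obtain ⟨r, hr, rfl⟩ := List.mem_map.1 he
      simp [h.1, ih h.2 r hr]

theorem forceOf_periodic {u : Forces} {w : List Term}
    (hu : ∀ i, ∀ a ∈ u.component i, Term.isPeriodic a = true)
    (hw : ∀ a ∈ w, Term.isPeriodic a = true) : ∀ a ∈ forceOf u w, Term.isPeriodic a = true := by
  have hS : ∀ (L : List Term) (D : Fin 3), (∀ a ∈ L, Term.isPeriodic a = true) →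
      ∀ b ∈ L.flatMap (Term.dSpace D), Term.isPeriodic b = true := by
    intro L D hL b hb
    obtain ⟨a, ha, hb⟩ := List.mem_flatMap.1 hb
    fin_cases D <;>
      · obtain ⟨e, -, rfl⟩ := List.mem_map.1 hb
        exact hL a ha
  have hT : ∀ b ∈ w.flatMap Term.dT, Term.isPeriodic b = true := by
    intro b hb
    obtain ⟨a, ha, hb⟩ := List.mem_flatMap.1 hb
    obtain ⟨e, he, rfl⟩ := List.mem_map.1 hb
    exact dProd_timeDlist_all (hw a ha) e he
  have hM : ∀ L K : List Term, (∀ a ∈ L, Term.isPeriodic a = true) →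
      (∀ a ∈ K, Term.isPeriodic a = true) → ∀ b ∈ mulSum L K, Term.isPeriodic b = true := by
    intro L K hL hK b hb
    obtain ⟨a, ha, hb⟩ := List.mem_flatMap.1 hb
    obtain ⟨a', ha', rfl⟩ := List.mem_map.1 hb
    show (a.2.1 ++ a'.2.1).all (fun g => g.1) = true
    rw [List.all_append]
    exact Bool.and_eq_true_iff.2 ⟨hL a ha, hK a' ha'⟩
  intro b hb
  simp only [forceOf, List.mem_append, List.mem_map] at hb
  rcases hb with hb | hb | hb | hb | ⟨a, ha, rfl⟩
  · exact hT b hb
  · exact hM _ _ (hu 0) (hS w 0 hw) b hb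
  · exact hM _ _ (hu 1) (hS w 1 hw) b hb
  · exact hM _ _ (hu 2) (hS w 2 hw) b hb
  · rcases ha with ha | ha | ha
    · exact hS _ 0 (hS w 0 hw) a ha
    · exact hS _ 1 (hS w 1 hw) a ha
    · exact hS _ 2 (hS w 2 hw) a ha

theorem field_periodic (P : Program) (i : Fin 3) :
    ∀ a ∈ P.field.component i, Term.isPeriodic a = true := by
  intro a ha
  obtain ⟨-, c, -, h⟩ := isFieldTerm_field P i a ha
  simp [Term.isPeriodic, h]

theorem forces_periodic (P : Program) (s s' : Start) (i : Fin 3) :
    ((forces (P, s)).component i).filter Term.isPeriodic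
      = ((forces (P, s')).component i).filter Term.isPeriodic := by
  have hl : ∀ r, (loadForce r).filter Term.isPeriodic = [] := fun r => by
    simp [loadForce, Term.isPeriodic]
  fin_cases i <;> simp [forces, Forces.component, List.filter_append, hl]

theorem forces_vanish (P : Program) (s : Start) (i : Fin 3) :
    ∀ τ ∈ (forces (P, s)).component i, τ.isPeriodic = false →
      ∀ t, 1 ≤ t → ∀ ν x, τ.eval ν t x = 0 := by
  intro τ hτ hp t ht ν x
  have hl : ∀ r, τ ∈ loadForce r → τ.eval ν t x = 0 := by
    intro r hr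
    rw [List.mem_singleton.1 hr]
    have hz : iteratedDeriv 1 rho (4 * t - 1) = 0 :=
      iteratedDeriv_rho_eq_zero' 1 (by rw [abs_of_nonneg (by linarith)]; linarith)
    have hl : ((0, (false, 3, 0), (1, 0, 0), Sum.inl 1) : Bump) = loadBump 1 := rfl
    simp [Term.eval_eq, timeProd, timeFactor, hl, loadBump_eval, hz]
  have hf := fun j => forceOf_periodic (field_periodic P) (field_periodic P j) τ
  fin_cases i
  · rcases List.mem_append.1 hτ with h | h
    · exact absurd (hf 0 h) (by simp [hp])
    · exact hl _ h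
  · rcases List.mem_append.1 hτ with h | h
    · exact absurd (hf 1 h) (by simp [hp])
    · exact hl _ h
  · exact absurd (hf 2 hτ) (by simp [hp])

end Vale.Agent.P113
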